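import Vale.Agent.P092.H589.K2u
import Vale.Agent.P092.H890.Dens

/-!
P092, TEAM N, piece (T1) of helper914's NJB assembly (helper696): the functions on the projective
space whose homogeneous lift is `Tame` are dense.
-/

set_option linter.all false

open scoped BigOperators Topology LinearAlgebra.Projectivization
open Filter Set

namespace Vale.Agent.P092.H696

open Vale.Agent.P092.H820 (pj pj_surj pj_continuous pj_eq pj_open pj_oq)
open Vale.Agent.P092.H589.K2 (Tame gen tame_gen tame_lc sq2)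

section defs

variable (k : Type) [NontriviallyNormedField k] (β : Type) [Fintype β]

/-- tame functions on the projective space -/
def TD : Set C(ℙ k (β → k), ℂ) :=
  {G | ∃ φ : (β → k) → ℂ,
    (∀ (K : Type) [NormedAddCommGroup K] [InnerProductSpace ℂ K] [CompleteSpace K], Tame K φ) ∧
    (∀ (c : k) v, c ≠ 0 → φ (c • v) = φ v) ∧
    ∀ v hv, G (Projectivization.mk k v hv) = φ v}

end defs

section closure

variable {k : Type} [NontriviallyNormedField k] {β : Type} [Fintype β]

theorem TD.const (a : ℂ) : (ContinuousMap.const _ a) ∈ TD k β :=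
  ⟨fun _ => a, fun K _ _ _ => Tame.const a, fun _ _ _ => rfl, fun _ _ => rfl⟩

theorem TD.add {F G : C(ℙ k (β → k), ℂ)} (hF : F ∈ TD k β) (hG : G ∈ TD k β) :
    F + G ∈ TD k β := by
  obtain ⟨φ, h1, h2, h3⟩ := hF
  obtain ⟨ψ, h1', h2', h3'⟩ := hG
  exact ⟨fun v => φ v + ψ v, fun K _ _ _ => (h1 K).add (h1' K),
    fun c v hc => by simp only [h2 c v hc, h2' c v hc],
    fun v hv => by rw [ContinuousMap.add_apply, h3, h3']⟩

theorem TD.mul {F G : C(ℙ k (β → k), ℂ)} (hF : F ∈ TD k β) (hG : G ∈ TD k β) :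
    F * G ∈ TD k β := by
  obtain ⟨φ, h1, h2, h3⟩ := hF
  obtain ⟨ψ, h1', h2', h3'⟩ := hG
  exact ⟨fun v => φ v * ψ v, fun K _ _ _ => (h1 K).mul (h1' K),
    fun c v hc => by simp only [h2 c v hc, h2' c v hc],
    fun v hv => by rw [ContinuousMap.mul_apply, h3, h3']⟩

theorem TD.smul {F : C(ℙ k (β → k), ℂ)} (a : ℂ) (hF : F ∈ TD k β) : a • F ∈ TD k β := by
  obtain ⟨φ, h1, h2, h3⟩ := hF
  exact ⟨fun v => a * φ v, fun K _ _ _ => (h1 K).smul a,
    fun c v hc => by simp only [h2 c v hc],
    fun v hv => by rw [ContinuousMap.smul_apply, h3, smul_eq_mul]⟩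

/-- a dense set of tame functions is enough -/
theorem td_span (h : Dense (TD k β)) :
    closure (Submodule.span ℂ (TD k β) : Set C(ℙ k (β → k), ℂ)) = Set.univ :=
  (h.mono Submodule.subset_span).closure_eq

end closure

section arch

variable {k : Type} [NontriviallyNormedField k] [ProperSpace k] {β : Type} [Fintype β]

/-- `k = ℝ`, `ℂ`: the tame functions are dense -/
theorem td_dense_arch (τ : k →+* ℂ) (hτ : ∀ x, ‖τ x‖ = ‖x‖) : Dense (TD k β) := by
  refine (H890.dense_adjE (m := β) τ hτ).mono fun f hf => ?_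
  refine Algebra.adjoin_induction (p := fun f _ => f ∈ TD k β) ?_ ?_ ?_ ?_ hf
  · rintro f ⟨p, q, rfl⟩
    exact ⟨gen τ p q, fun K _ _ _ => tame_gen τ hτ p q, (tame_gen (K := ℂ) τ hτ p q).1,
      fun v hv => rfl⟩
  · intro r
    exact TD.const r
  · intro f g _ _ hf hg
    exact TD.add hf hg
  · intro f g _ _ hf hg
    exact TD.mul hf hg

end arch

section ultra

variable {k : Type} [NontriviallyNormedField k] [ProperSpace k] [IsUltrametricDist k] {β : Type}
  [Fintype β]

/-- a locally constant function of the points is uniformly constant on the balls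
`‖v - w‖ ≤ ε ‖v‖` -/
theorem ev_lc {f : C(ℙ k (β → k), ℂ)} (hf : IsLocallyConstant f) :
    ∃ ε > 0, ∀ v w : β → k, ‖v - w‖ ≤ ε * ‖v‖ → H890.ev f v = H890.ev f w := by
  classical
  set Sh : Set (β → k) := Metric.sphere 0 1 with hSh
  have hcomp : IsCompact Sh := isCompact_sphere _ _
  let U : ℂ → Set (β → k) := fun c => {w | w ≠ 0 ∧ H890.ev f w = c}
  have hU : ∀ c, IsOpen (U c) := by
    intro c
    have : U c = Subtype.val '' (pj k β ⁻¹' (f ⁻¹' {c})) := by
      ext w
      constructor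
      · rintro ⟨hw, he⟩
        refine ⟨⟨w, hw⟩, ?_, rfl⟩
        rw [H890.ev_ne _ hw] at he
        exact he
      · rintro ⟨w', hw', rfl⟩
        refine ⟨w'.2, ?_⟩
        rw [H890.ev_ne _ w'.2]
        exact hw'
    rw [this]
    have ho : IsOpen {w : β → k | w ≠ 0} := isOpen_ne
    exact ho.isOpenMap_subtype_val _ ((hf {c}).preimage pj_continuous)
  have hcov : Sh ⊆ ⋃ c, U c := by
    intro w hw
    have hw1 : ‖w‖ = 1 := by simpa [hSh] using hw
    have hw0 : w ≠ 0 := by
      rintro rfl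
      rw [norm_zero] at hw1
      exact zero_ne_one hw1
    exact mem_iUnion.2 ⟨H890.ev f w, hw0, rfl⟩
  obtain ⟨δ, hδ, hL⟩ := lebesgue_number_lemma_of_metric hcomp hU hcov
  refine ⟨δ / 2, by positivity, fun v w h => ?_⟩
  by_cases hv : v = 0
  · subst hv
    rw [norm_zero, mul_zero] at h
    have : w = 0 := by
      have := norm_le_zero_iff.1 h
      rw [zero_sub, neg_eq_zero] at this
      exact this
    rw [this]
  · -- a coordinate of maximal norm
    obtain ⟨b, hb⟩ : ∃ b, ‖v b‖ = ‖v‖ := by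
      have hne : Nonempty β := by
        by_contra hne
        rw [not_nonempty_iff] at hne
        exact hv (Subsingleton.elim _ _)
      obtain ⟨b, -, hb⟩ := Finset.exists_mem_eq_sup' (Finset.univ_nonempty (α := β))
        (fun b => ‖v b‖₊)
      refine ⟨b, ?_⟩
      have h2 : ‖v‖₊ = ‖v b‖₊ := by
        rw [Pi.nnnorm_def, ← Finset.sup'_eq_sup Finset.univ_nonempty, hb]
      have := congrArg NNReal.toReal h2
      exact this.symm
    have hn : 0 < ‖v‖ := norm_pos_iff.2 hv
    have hb0 : v b ≠ 0 := norm_pos_iff.1 (by rw [hb]; exact hn)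
    have hc0 : (v b)⁻¹ ≠ 0 := inv_ne_zero hb0
    have e1 : ‖(v b)⁻¹ • v‖ = 1 := by
      rw [norm_smul, norm_inv, hb, inv_mul_cancel₀ hn.ne']
    obtain ⟨c, hc⟩ := hL ((v b)⁻¹ • v) (by simp [hSh, e1])
    have h3 : (v b)⁻¹ • w ∈ Metric.ball ((v b)⁻¹ • v) δ := by
      rw [Metric.mem_ball, dist_comm, dist_eq_norm, ← smul_sub, norm_smul, norm_inv, hb]
      calc ‖v‖⁻¹ * ‖v - w‖ ≤ ‖v‖⁻¹ * (δ / 2 * ‖v‖) := by gcongr
        _ = δ / 2 := by field_simp
        _ < δ := by linarith
    have h4 := (hc h3).2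
    have h5 := (hc (Metric.mem_ball_self hδ)).2
    rw [H890.ev_scale f hc0] at h4 h5
    rw [h5, h4]

/-- nonarchimedean fields: the tame functions are dense -/
theorem td_dense_ultra : Dense (TD k β) := by
  refine (H890.dense_lc (k := k) (m := β)).mono fun f hf => ?_
  have hh : ∀ (c : k) v, c ≠ 0 → H890.ev f (c • v) = H890.ev f v :=
    fun c v hc => H890.ev_scale f hc v
  obtain ⟨ε, hε, hlc⟩ := ev_lc hf
  refine ⟨H890.ev f, fun K _ _ _ => ?_, hh, fun v hv => (H890.ev_ne f hv).symm⟩
  refine tame_lc hh (norm_nonneg f) (fun v => ?_) hε hlc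
  by_cases hv : v = 0
  · subst hv
    rw [H890.ev_zero, norm_zero]
    exact norm_nonneg _
  · rw [H890.ev_ne f hv]
    exact ContinuousMap.norm_coe_le_norm f _

end ultra

section all

variable {k : Type} [NontriviallyNormedField k] [ProperSpace k] {β : Type} [Fintype β]

/-- the tame functions are dense, `k = ℝ`, `ℂ` or ultrametric -/
theorem dense_td (hk : (∃ τ : k →+* ℂ, ∀ x, ‖τ x‖ = ‖x‖) ∨ IsUltrametricDist k) :
    Dense (TD k β) := by
  rcases hk with ⟨τ, hτ⟩ | hu
  · exact td_dense_arch τ hτ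
  · exact td_dense_ultra

/-- **(T1)**: the tame functions span a dense subspace -/
theorem td_dense (hk : (∃ τ : k →+* ℂ, ∀ x, ‖τ x‖ = ‖x‖) ∨ IsUltrametricDist k) :
    closure (Submodule.span ℂ (TD k β) : Set C(ℙ k (β → k), ℂ)) = Set.univ :=
  td_span (dense_td hk)

/-- the tame functions form a subspace, so no span is needed -/
theorem span_td : (Submodule.span ℂ (TD k β) : Set C(ℙ k (β → k), ℂ)) = TD k β := by
  let V : Submodule ℂ C(ℙ k (β → k), ℂ) :=
    { carrier := TD k β
      add_mem' := fun hF hG => TD.add hF hG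
      zero_mem' := TD.const 0
      smul_mem' := fun a F hF => TD.smul a hF }
  refine Set.Subset.antisymm ?_ Submodule.subset_span
  exact Submodule.span_le (p := V).2 (fun _ h => h)

end all

end Vale.Agent.P092.H696
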