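import Mathlib

/-!
P092, Team D, geometry of (3) (helper696): the near-wall elements of `SL_3(ℝ)` in the pivot
letters of helper414 (Lemma N), the repelling disc of lines, the strip of points and the
anisotropic regularity of `f ∘ g`.
-/

namespace Vale.Agent.P092.H696

open Matrix

/-- `g` is a near-wall element at the scale `t` (`|g| ~ t ^ 2`, `|g⁻¹| ≲ t`) with pivot `(i, j)`. -/
structure NW (C t : ℝ) (g : Matrix (Fin 3) (Fin 3) ℝ) (i j : Fin 3) : Prop where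
  det : g.det = 1
  piv : ∀ a b, |g a b| ≤ |g i j|
  lo : t ^ 2 ≤ C * |g i j|
  hi : |g i j| ≤ C * t ^ 2
  adj : ∀ a b, |g.adjugate a b| ≤ C * t

/-- the repelling line of `g` as a covector, normalised at the pivot -/
noncomputable def yy (g : Matrix (Fin 3) (Fin 3) ℝ) (i j : Fin 3) : Fin 3 → ℝ :=
  fun b => g i b / g i j

/-- the attracting point of `g`, normalised at the pivot -/
noncomputable def uu (g : Matrix (Fin 3) (Fin 3) ℝ) (i j : Fin 3) : Fin 3 → ℝ :=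
  fun a => g a j / g i j

/-- the remainder -/
noncomputable def EE (g : Matrix (Fin 3) (Fin 3) ℝ) (i j : Fin 3) : Matrix (Fin 3) (Fin 3) ℝ :=
  fun a b => g a b - g a j * g i b / g i j

variable {C t : ℝ} {g : Matrix (Fin 3) (Fin 3) ℝ} {i j : Fin 3}

namespace NW

theorem C_pos (h : NW C t g i j) (ht : 1 ≤ t) : 0 < C := by
  by_contra hc
  have h1 : C * |g i j| ≤ 0 := mul_nonpos_of_nonpos_of_nonneg (not_lt.1 hc) (abs_nonneg _)
  have h2 := h.lo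
  have h3 : 0 < t ^ 2 := by positivity
  linarith

theorem ne (h : NW C t g i j) (ht : 1 ≤ t) : g i j ≠ 0 := by
  intro h0
  have h2 := h.lo
  rw [h0, abs_zero, mul_zero] at h2
  have h3 : 0 < t ^ 2 := by positivity
  linarith

theorem minor (h : NW C t g i j) (a b c d : Fin 3) :
    |g a b * g c d - g a d * g c b| ≤ C * t := by
  have H := h.adj
  rw [adjugate_fin_three] at H
  have h00 := H 0 0
  have h01 := H 0 1
  have h02 := H 0 2
  have h10 := H 1 0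
  have h11 := H 1 1
  have h12 := H 1 2
  have h20 := H 2 0
  have h21 := H 2 1
  have h22 := H 2 2
  simp [abs_le] at h00 h01 h02 h10 h11 h12 h20 h21 h22
  have hM : 0 ≤ C * t := le_trans (abs_nonneg _) (h.adj 0 0)
  rw [abs_le]
  fin_cases a <;> fin_cases b <;> fin_cases c <;> fin_cases d <;> simp <;>
    first | exact hM | (constructor <;> linarith)

theorem EE_le (h : NW C t g i j) (ht : 1 ≤ t) (a b : Fin 3) :
    |EE g i j a b| ≤ C ^ 2 / t := by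
  have h0 := h.ne ht
  have hp : 0 < |g i j| := abs_pos.2 h0
  have e : EE g i j a b = (g a b * g i j - g a j * g i b) / g i j := by
    unfold EE
    field_simp
  have hC := h.C_pos ht
  rw [e, abs_div, div_le_div_iff₀ hp (by positivity)]
  have h1 := h.minor a b i j
  have h2 := h.lo
  have ht0 : 0 ≤ t := by linarith
  calc |g a b * g i j - g a j * g i b| * t ≤ C * t * t := mul_le_mul_of_nonneg_right h1 ht0
    _ = C * t ^ 2 := by ring
    _ ≤ C * (C * |g i j|) := mul_le_mul_of_nonneg_left h2 hC.le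
    _ = C ^ 2 * |g i j| := by ring

end NW

theorem mulVec_eq (h0 : g i j ≠ 0) (x : Fin 3 → ℝ) :
    g *ᵥ x = (g i j * (yy g i j ⬝ᵥ x)) • uu g i j + EE g i j *ᵥ x := by
  funext a
  simp only [mulVec, dotProduct, Fin.sum_univ_three, yy, uu, EE, Pi.add_apply, Pi.smul_apply,
    smul_eq_mul]
  field_simp
  ring

theorem vecMul_eq (h0 : g i j ≠ 0) (l : Fin 3 → ℝ) :
    l ᵥ* g = (g i j * (l ⬝ᵥ uu g i j)) • yy g i j + l ᵥ* EE g i j := by
  funext a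
  simp only [vecMul, dotProduct, Fin.sum_univ_three, yy, uu, EE, Pi.add_apply, Pi.smul_apply,
    smul_eq_mul]
  field_simp
  ring

theorem yy_self (h0 : g i j ≠ 0) : yy g i j j = 1 := div_self h0

theorem uu_self (h0 : g i j ≠ 0) : uu g i j i = 1 := div_self h0

theorem NW.yy_le (h : NW C t g i j) (b : Fin 3) : |yy g i j b| ≤ 1 := by
  unfold yy
  rw [abs_div]
  exact div_le_one_of_le₀ (h.piv i b) (abs_nonneg _)

theorem NW.uu_le (h : NW C t g i j) (a : Fin 3) : |uu g i j a| ≤ 1 := by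
  unfold uu
  rw [abs_div]
  exact div_le_one_of_le₀ (h.piv a j) (abs_nonneg _)

theorem NW.uu_norm (h : NW C t g i j) (ht : 1 ≤ t) : ‖uu g i j‖ = 1 := by
  apply le_antisymm
  · exact (pi_norm_le_iff_of_nonneg zero_le_one).2 fun a => h.uu_le a
  · have := norm_le_pi_norm (uu g i j) i
    rwa [uu_self (h.ne ht), norm_one] at this

theorem NW.yy_norm (h : NW C t g i j) (ht : 1 ≤ t) : ‖yy g i j‖ = 1 := by
  apply le_antisymm
  · exact (pi_norm_le_iff_of_nonneg zero_le_one).2 fun a => h.yy_le a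
  · have := norm_le_pi_norm (yy g i j) j
    rwa [yy_self (h.ne ht), norm_one] at this

/-- entrywise bound of `mulVec` -/
theorem norm_mulVec_le {A : Matrix (Fin 3) (Fin 3) ℝ} {e : ℝ} (hA : ∀ a b, |A a b| ≤ e)
    (x : Fin 3 → ℝ) : ‖A *ᵥ x‖ ≤ 3 * e * ‖x‖ := by
  have he : 0 ≤ e := le_trans (abs_nonneg _) (hA 0 0)
  refine (pi_norm_le_iff_of_nonneg (by positivity)).2 fun a => ?_
  have h1 : ∀ b, |A a b * x b| ≤ e * ‖x‖ := fun b => by
    rw [abs_mul]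
    exact mul_le_mul (hA a b) (norm_le_pi_norm x b) (abs_nonneg _) he
  simp only [mulVec, dotProduct, Fin.sum_univ_three, Real.norm_eq_abs]
  calc |A a 0 * x 0 + A a 1 * x 1 + A a 2 * x 2| ≤ |A a 0 * x 0| + |A a 1 * x 1| + |A a 2 * x 2| :=
        abs_add_three _ _ _
    _ ≤ e * ‖x‖ + e * ‖x‖ + e * ‖x‖ := by gcongr <;> exact h1 _
    _ = 3 * e * ‖x‖ := by ring

theorem norm_vecMul_le {A : Matrix (Fin 3) (Fin 3) ℝ} {e : ℝ} (hA : ∀ a b, |A a b| ≤ e)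
    (x : Fin 3 → ℝ) : ‖x ᵥ* A‖ ≤ 3 * e * ‖x‖ := by
  rw [← mulVec_transpose]
  exact norm_mulVec_le (fun a b => hA b a) x

theorem norm_cross_le (a b : Fin 3 → ℝ) : ‖a ⨯₃ b‖ ≤ 2 * ‖a‖ * ‖b‖ := by
  refine (pi_norm_le_iff_of_nonneg (by positivity)).2 fun c => ?_
  have h1 : ∀ p q, |a p * b q| ≤ ‖a‖ * ‖b‖ := fun p q => by
    rw [abs_mul]
    exact mul_le_mul (norm_le_pi_norm a p) (norm_le_pi_norm b q) (abs_nonneg _) (norm_nonneg _)
  have h2 : ∀ p q p' q', |a p * b q - a p' * b q'| ≤ 2 * ‖a‖ * ‖b‖ := fun p q p' q' => by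
    calc |a p * b q - a p' * b q'| ≤ |a p * b q| + |a p' * b q'| := abs_sub _ _
      _ ≤ ‖a‖ * ‖b‖ + ‖a‖ * ‖b‖ := add_le_add (h1 _ _) (h1 _ _)
      _ = 2 * ‖a‖ * ‖b‖ := by ring
  rw [cross_apply]
  fin_cases c <;> simpa using h2 _ _ _ _

/-! ### the strip -/

/-- the constant of the strip -/
noncomputable def cS (C δ : ℝ) : ℝ := C ^ 3 * (6 / δ + 3)

theorem NW.EEx (h : NW C t g i j) (ht : 1 ≤ t) (x : Fin 3 → ℝ) :
    ‖EE g i j *ᵥ x‖ ≤ 3 * (C ^ 2 / t) * ‖x‖ := norm_mulVec_le (h.EE_le ht) x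

theorem NW.lEE (h : NW C t g i j) (ht : 1 ≤ t) (x : Fin 3 → ℝ) :
    ‖x ᵥ* EE g i j‖ ≤ 3 * (C ^ 2 / t) * ‖x‖ := norm_vecMul_le (h.EE_le ht) x

theorem NW.cross_eq (h : NW C t g i j) (ht : 1 ≤ t) (x : Fin 3 → ℝ) :
    uu g i j ⨯₃ (g *ᵥ x) = uu g i j ⨯₃ (EE g i j *ᵥ x) := by
  rw [mulVec_eq (h.ne ht) x, map_add, map_smul, cross_self, smul_zero, zero_add]

/-- **(b)** The points `x` such that `g x` is at a definite angle from the attracting point are in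
the strip of the repelling line. -/
theorem NW.strip (h : NW C t g i j) (ht : 1 ≤ t) {δ : ℝ} (hδ : 0 < δ) {x : Fin 3 → ℝ}
    (hx : δ * ‖g *ᵥ x‖ ≤ ‖uu g i j ⨯₃ (g *ᵥ x)‖) :
    |yy g i j ⬝ᵥ x| ≤ cS C δ * (t ^ 3)⁻¹ * ‖x‖ := by
  have h0 := h.ne ht
  have hC := h.C_pos ht
  have ht0 : 0 < t := by linarith
  have hp : 0 < |g i j| := abs_pos.2 h0
  set e : ℝ := 3 * (C ^ 2 / t) * ‖x‖ with he
  have h1 : ‖EE g i j *ᵥ x‖ ≤ e := h.EEx ht x
  have h2 : δ * ‖g *ᵥ x‖ ≤ 2 * e := by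
    refine hx.trans ?_
    rw [h.cross_eq ht]
    refine (norm_cross_le _ _).trans ?_
    rw [h.uu_norm ht, mul_one]
    exact mul_le_mul_of_nonneg_left h1 (by norm_num)
  have h3 : ‖g *ᵥ x‖ ≤ 2 * e / δ := by
    rw [le_div_iff₀ hδ]
    linarith
  have h4 : |g i j| * |yy g i j ⬝ᵥ x| ≤ 2 * e / δ + e := by
    have e1 : ‖(g i j * (yy g i j ⬝ᵥ x)) • uu g i j‖ ≤ ‖g *ᵥ x‖ + ‖EE g i j *ᵥ x‖ := by
      have : (g i j * (yy g i j ⬝ᵥ x)) • uu g i j = g *ᵥ x - EE g i j *ᵥ x := by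
        rw [mulVec_eq h0 x]; abel
      rw [this]
      exact norm_sub_le _ _
    rw [norm_smul, h.uu_norm ht, mul_one, Real.norm_eq_abs, abs_mul] at e1
    linarith
  have h5 := h.lo
  have h6 : t ^ 2 * |yy g i j ⬝ᵥ x| ≤ C * (2 * e / δ + e) := by
    calc t ^ 2 * |yy g i j ⬝ᵥ x| ≤ (C * |g i j|) * |yy g i j ⬝ᵥ x| :=
          mul_le_mul_of_nonneg_right h5 (abs_nonneg _)
      _ = C * (|g i j| * |yy g i j ⬝ᵥ x|) := by ring
      _ ≤ C * (2 * e / δ + e) := mul_le_mul_of_nonneg_left h4 hC.le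
  have h7 : cS C δ * (t ^ 3)⁻¹ * ‖x‖ = C * (2 * e / δ + e) / t ^ 2 := by
    rw [he, cS]
    field_simp
    ring
  rw [h7, le_div_iff₀ (by positivity)]
  linarith

/-! ### the disc -/

/-- the constant of the disc -/
noncomputable def cD (C δ : ℝ) : ℝ := 12 * C ^ 3 / δ

/-- **(a)** The lines `l` at a definite distance from the attracting point are pulled back by `g`
into the disc around the repelling line. -/
theorem NW.disc (h : NW C t g i j) (ht : 1 ≤ t) {δ : ℝ} (hδ : 0 < δ)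
    (hs : 6 * C ^ 3 ≤ δ * t ^ 3) {l : Fin 3 → ℝ} (hl : l ≠ 0)
    (hx : δ * ‖l‖ ≤ |l ⬝ᵥ uu g i j|) :
    (l ᵥ* g) j ≠ 0 ∧
      ∀ b, |(l ᵥ* g) b - (l ᵥ* g) j * yy g i j b| ≤ cD C δ * (t ^ 3)⁻¹ * |(l ᵥ* g) j| := by
  have h0 := h.ne ht
  have hC := h.C_pos ht
  have ht0 : 0 < t := by linarith
  have hp : 0 < |g i j| := abs_pos.2 h0
  have hln : 0 < ‖l‖ := norm_pos_iff.2 hl
  set c : ℝ := g i j * (l ⬝ᵥ uu g i j) with hc
  set ε : ℝ := 3 * C ^ 3 / δ * (t ^ 3)⁻¹ with hε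
  have hε0 : 0 < ε := by positivity
  have hε1 : ε ≤ 1 / 2 := by
    rw [hε, ← div_eq_mul_inv, div_div, div_le_iff₀ (by positivity)]
    linarith
  have hc1 : ∀ b, |(l ᵥ* g) b - c * yy g i j b| ≤ ε * |c| := by
    intro b
    have e1 : (l ᵥ* g) b - c * yy g i j b = (l ᵥ* EE g i j) b := by
      rw [vecMul_eq h0 l, Pi.add_apply, Pi.smul_apply, smul_eq_mul]
      ring
    have e2 : |(l ᵥ* EE g i j) b| ≤ 3 * (C ^ 2 / t) * ‖l‖ :=
      (norm_le_pi_norm _ b).trans (h.lEE ht l)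
    have e3 : t ^ 2 * (δ * ‖l‖) ≤ C * |c| := by
      rw [hc, abs_mul]
      calc t ^ 2 * (δ * ‖l‖) ≤ (C * |g i j|) * |l ⬝ᵥ uu g i j| :=
            mul_le_mul h.lo hx (by positivity) (by positivity)
        _ = _ := by ring
    have e4 : 3 * (C ^ 2 / t) * ‖l‖ = 3 * C ^ 2 / δ * (t ^ 3)⁻¹ * (t ^ 2 * (δ * ‖l‖)) := by
      field_simp
    rw [e1]
    refine e2.trans ?_
    rw [e4]
    calc 3 * C ^ 2 / δ * (t ^ 3)⁻¹ * (t ^ 2 * (δ * ‖l‖)) ≤
        3 * C ^ 2 / δ * (t ^ 3)⁻¹ * (C * |c|) := mul_le_mul_of_nonneg_left e3 (by positivity)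
      _ = ε * |c| := by rw [hε]; ring
  have hc0 : 0 < |c| := by
    have : 0 < t ^ 2 * (δ * ‖l‖) := by positivity
    have e3 : t ^ 2 * (δ * ‖l‖) ≤ C * |c| := by
      rw [hc, abs_mul]
      calc t ^ 2 * (δ * ‖l‖) ≤ (C * |g i j|) * |l ⬝ᵥ uu g i j| :=
            mul_le_mul h.lo hx (by positivity) (by positivity)
        _ = _ := by ring
    by_contra hh
    have : |c| = 0 := le_antisymm (not_lt.1 hh) (abs_nonneg _)
    rw [this] at e3
    linarith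
  have hj := hc1 j
  rw [yy_self h0, mul_one] at hj
  have hj2 : |c| ≤ 2 * |(l ᵥ* g) j| := by
    have e1 : |c| ≤ |(l ᵥ* g) j| + |(l ᵥ* g) j - c| := by
      have := abs_sub_abs_le_abs_sub c ((l ᵥ* g) j)
      rw [abs_sub_comm c] at this
      linarith
    have e2 : ε * |c| ≤ 1 / 2 * |c| := mul_le_mul_of_nonneg_right hε1 hc0.le
    linarith
  refine ⟨fun hz => ?_, fun b => ?_⟩
  · rw [hz, abs_zero, mul_zero] at hj2
    linarith
  · have e1 : (l ᵥ* g) b - (l ᵥ* g) j * yy g i j b =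
        ((l ᵥ* g) b - c * yy g i j b) - ((l ᵥ* g) j - c) * yy g i j b := by ring
    have e2 : |((l ᵥ* g) j - c) * yy g i j b| ≤ ε * |c| := by
      rw [abs_mul]
      calc |(l ᵥ* g) j - c| * |yy g i j b| ≤ |(l ᵥ* g) j - c| * 1 :=
            mul_le_mul_of_nonneg_left (h.yy_le b) (abs_nonneg _)
        _ ≤ ε * |c| := by rw [mul_one]; exact hj
    calc |(l ᵥ* g) b - (l ᵥ* g) j * yy g i j b| ≤
        |(l ᵥ* g) b - c * yy g i j b| + |((l ᵥ* g) j - c) * yy g i j b| := by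
          rw [e1]; exact abs_sub _ _
      _ ≤ ε * |c| + ε * |c| := add_le_add (hc1 b) e2
      _ = 2 * ε * |c| := by ring
      _ ≤ 2 * ε * (2 * |(l ᵥ* g) j|) := mul_le_mul_of_nonneg_left hj2 (by positivity)
      _ = cD C δ * (t ^ 3)⁻¹ * |(l ᵥ* g) j| := by rw [hε, cD]; ring

/-! ### the anisotropic regularity -/

/-- the lower bound of `g` -/
theorem NW.norm_le (h : NW C t g i j) (x : Fin 3 → ℝ) : ‖x‖ ≤ 3 * (C * t) * ‖g *ᵥ x‖ := by
  have e : g.adjugate *ᵥ (g *ᵥ x) = x := by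
    rw [mulVec_mulVec, adjugate_mul, h.det, one_smul, one_mulVec]
  calc ‖x‖ = ‖g.adjugate *ᵥ (g *ᵥ x)‖ := by rw [e]
    _ ≤ 3 * (C * t) * ‖g *ᵥ x‖ := norm_mulVec_le h.adj _

theorem NW.cross_mul (h : NW C t g i j) (ht : 1 ≤ t) (x x' : Fin 3 → ℝ) :
    (g *ᵥ x) ⨯₃ (g *ᵥ x') = g i j • (uu g i j ⨯₃ (EE g i j *ᵥ
      ((yy g i j ⬝ᵥ x) • (x' - x) - (yy g i j ⬝ᵥ x' - yy g i j ⬝ᵥ x) • x))) +
        (EE g i j *ᵥ x) ⨯₃ (EE g i j *ᵥ (x' - x)) := by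
  have h0 := h.ne ht
  have e1 : (yy g i j ⬝ᵥ x) • (x' - x) - (yy g i j ⬝ᵥ x' - yy g i j ⬝ᵥ x) • x =
      (yy g i j ⬝ᵥ x) • x' - (yy g i j ⬝ᵥ x') • x := by
    rw [smul_sub, sub_smul]; abel
  rw [e1, mulVec_eq h0 x, mulVec_eq h0 x']
  simp only [map_add, map_smul, map_sub, LinearMap.add_apply, LinearMap.smul_apply, mulVec_sub,
    mulVec_smul, cross_self, smul_zero, zero_add, sub_zero, smul_sub]
  rw [← cross_anticomm (EE g i j *ᵥ x) (uu g i j)]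
  module

/-- the constant of the anisotropic regularity -/
noncomputable def cA (C δ L B : ℝ) : ℝ :=
  9 * C ^ 2 * L * (6 * C ^ 3 * cS C δ * B + 18 * C ^ 4 * B + 6 * C ^ 3 * B)

theorem NW.aniso_aux (h : NW C t g i j) (ht : 1 ≤ t) {δ L B : ℝ} (hδ : 0 < δ) (hL : 0 ≤ L)
    {x x' : Fin 3 → ℝ} (hx : δ * ‖g *ᵥ x‖ ≤ ‖uu g i j ⨯₃ (g *ᵥ x)‖) (h1 : 1 ≤ ‖x‖)
    (h1' : 1 ≤ ‖x'‖) (hB : ‖x‖ ≤ B) {a : ℝ}
    (ha : a * (‖g *ᵥ x‖ * ‖g *ᵥ x'‖) ≤ L * ‖(g *ᵥ x) ⨯₃ (g *ᵥ x')‖) :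
    a ≤ 9 * C ^ 2 * L * ((6 * C ^ 3 * cS C δ * B + 18 * C ^ 4 * B) * ‖x' - x‖ +
      6 * C ^ 3 * B * (t ^ 3 * |yy g i j ⬝ᵥ x' - yy g i j ⬝ᵥ x|)) := by
  have h0 := h.ne ht
  have hC := h.C_pos ht
  have ht0 : 0 < t := by linarith
  have hB0 : 0 < B := by linarith
  set w := yy g i j ⬝ᵥ x with hw
  set w' := yy g i j ⬝ᵥ x' with hw'
  have hcS : 0 ≤ cS C δ := by unfold cS; positivity
  have hs : |w| ≤ cS C δ * (t ^ 3)⁻¹ * B := (h.strip ht hδ hx).trans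
    (mul_le_mul_of_nonneg_left hB (by positivity))
  have e1 : ‖(g *ᵥ x) ⨯₃ (g *ᵥ x')‖ ≤ (C * t ^ 2) * (2 * (3 * (C ^ 2 / t) *
      (cS C δ * (t ^ 3)⁻¹ * B * ‖x' - x‖ + |w' - w| * B))) +
      2 * (3 * (C ^ 2 / t) * B) * (3 * (C ^ 2 / t) * ‖x' - x‖) := by
    rw [h.cross_mul ht]
    refine (norm_add_le _ _).trans (add_le_add ?_ ?_)
    · rw [norm_smul, Real.norm_eq_abs]
      refine mul_le_mul h.hi ?_ (norm_nonneg _) (by positivity)
      refine (norm_cross_le _ _).trans ?_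
      rw [h.uu_norm ht, mul_one]
      refine mul_le_mul_of_nonneg_left ((h.EEx ht _).trans ?_) (by norm_num)
      refine mul_le_mul_of_nonneg_left ?_ (by positivity)
      refine (norm_sub_le _ _).trans (add_le_add ?_ ?_)
      · rw [norm_smul, Real.norm_eq_abs]
        exact mul_le_mul_of_nonneg_right hs (norm_nonneg _)
      · rw [norm_smul, Real.norm_eq_abs]
        exact mul_le_mul_of_nonneg_left hB (abs_nonneg _)
    · refine (norm_cross_le _ _).trans ?_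
      refine mul_le_mul ?_ (h.EEx ht _) (norm_nonneg _) (by positivity)
      refine mul_le_mul_of_nonneg_left ((h.EEx ht _).trans ?_) (by norm_num)
      exact mul_le_mul_of_nonneg_left hB (by positivity)
  have e2 : (1 : ℝ) ≤ 3 * (C * t) * ‖g *ᵥ x‖ := h1.trans (h.norm_le x)
  have e3 : (1 : ℝ) ≤ 3 * (C * t) * ‖g *ᵥ x'‖ := h1'.trans (h.norm_le x')
  have e4 : (1 : ℝ) ≤ (9 * C ^ 2 * t ^ 2) * (‖g *ᵥ x‖ * ‖g *ᵥ x'‖) := by
    calc (1 : ℝ) = 1 * 1 := by norm_num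
      _ ≤ (3 * (C * t) * ‖g *ᵥ x‖) * (3 * (C * t) * ‖g *ᵥ x'‖) :=
        mul_le_mul e2 e3 zero_le_one (by positivity)
      _ = _ := by ring
  have e5 : L * ‖(g *ᵥ x) ⨯₃ (g *ᵥ x')‖ * (9 * C ^ 2 * t ^ 2) ≤
      9 * C ^ 2 * L * ((6 * C ^ 3 * cS C δ * B + 18 * C ^ 4 * B) * ‖x' - x‖ +
      6 * C ^ 3 * B * (t ^ 3 * |w' - w|)) := by
    calc L * ‖(g *ᵥ x) ⨯₃ (g *ᵥ x')‖ * (9 * C ^ 2 * t ^ 2) ≤
        L * ((C * t ^ 2) * (2 * (3 * (C ^ 2 / t) *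
      (cS C δ * (t ^ 3)⁻¹ * B * ‖x' - x‖ + |w' - w| * B))) +
      2 * (3 * (C ^ 2 / t) * B) * (3 * (C ^ 2 / t) * ‖x' - x‖)) * (9 * C ^ 2 * t ^ 2) := by
          refine mul_le_mul_of_nonneg_right ?_ (by positivity)
          exact mul_le_mul_of_nonneg_left e1 hL
      _ = 9 * C ^ 2 * L * ((6 * C ^ 3 * cS C δ * B + 18 * C ^ 4 * B) * ‖x' - x‖ +
      6 * C ^ 3 * B * (t ^ 3 * |w' - w|)) := by
          field_simp
          ring
  by_cases ha0 : a ≤ 0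
  · refine ha0.trans ?_
    positivity
  · have ha1 : 0 ≤ a := (not_le.1 ha0).le
    calc a = a * 1 := (mul_one a).symm
      _ ≤ a * ((9 * C ^ 2 * t ^ 2) * (‖g *ᵥ x‖ * ‖g *ᵥ x'‖)) := mul_le_mul_of_nonneg_left e4 ha1
      _ = (a * (‖g *ᵥ x‖ * ‖g *ᵥ x'‖)) * (9 * C ^ 2 * t ^ 2) := by ring
      _ ≤ (L * ‖(g *ᵥ x) ⨯₃ (g *ᵥ x')‖) * (9 * C ^ 2 * t ^ 2) :=
        mul_le_mul_of_nonneg_right ha (by positivity)
      _ ≤ _ := e5

/-- in a chart the difference of two points is controlled by the two coordinates -/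
theorem NW.chart_diff (h : NW C t g i j) (ht : 1 ≤ t) {m l : Fin 3} (hm : m ≠ j) (hl : l ≠ j)
    (hml : m ≠ l) {x x' : Fin 3 → ℝ} (hx : x m = 1) (hx' : x' m = 1) :
    ‖x' - x‖ ≤ |x' l - x l| + |yy g i j ⬝ᵥ x' - yy g i j ⬝ᵥ x| := by
  have h0 := h.ne ht
  refine (pi_norm_le_iff_of_nonneg (by positivity)).2 fun a => ?_
  rw [Pi.sub_apply, Real.norm_eq_abs]
  have hall : a = j ∨ a = m ∨ a = l := by
    revert hm hl hml
    clear hx hx'
    fin_cases a <;> fin_cases j <;> fin_cases m <;> fin_cases l <;> simp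
  have key : yy g i j ⬝ᵥ x' - yy g i j ⬝ᵥ x = (x' j - x j) + yy g i j l * (x' l - x l) := by
    have e1 : ∀ z : Fin 3 → ℝ, yy g i j ⬝ᵥ z = z j + yy g i j m * z m + yy g i j l * z l := by
      intro z
      have hsum : ∀ F : Fin 3 → ℝ, ∑ b, F b = F j + F m + F l := by
        intro F
        rw [Fin.sum_univ_three]
        revert hm hl hml
        clear hx hx' hall
        fin_cases j <;> fin_cases m <;> fin_cases l <;> simp <;> ring
      rw [dotProduct, hsum, yy_self h0, one_mul]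
    rw [e1, e1, hx, hx']
    ring
  rcases hall with rfl | rfl | rfl
  · have e2 : x' a - x a = (yy g i a ⬝ᵥ x' - yy g i a ⬝ᵥ x) - yy g i a l * (x' l - x l) := by
      rw [key]; ring
    rw [e2]
    refine (abs_sub _ _).trans ?_
    rw [abs_mul, add_comm]
    refine add_le_add ?_ le_rfl
    calc |yy g i a l| * |x' l - x l| ≤ 1 * |x' l - x l| :=
          mul_le_mul_of_nonneg_right (h.yy_le l) (abs_nonneg _)
      _ = _ := one_mul _
  · rw [hx, hx', sub_self, abs_zero]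
    positivity
  · exact le_add_of_nonneg_right (abs_nonneg _)

/-- **(c)** the anisotropic regularity of `f ∘ g` in a chart: slope `O(1)` along the repelling
line, `O(t ^ 3)` across it. -/
theorem NW.aniso (h : NW C t g i j) (ht : 1 ≤ t) {δ L B : ℝ} (hδ : 0 < δ) (hL0 : 0 ≤ L)
    {f : (Fin 3 → ℝ) → ℂ}
    (hL : ∀ a b, a ≠ 0 → b ≠ 0 → ‖f a - f b‖ * (‖a‖ * ‖b‖) ≤ L * ‖a ⨯₃ b‖)
    (hs : ∀ a, a ≠ 0 → f a ≠ 0 → δ * ‖a‖ ≤ ‖uu g i j ⨯₃ a‖)
    {m l : Fin 3} (hm : m ≠ j) (hl : l ≠ j) (hml : m ≠ l) {x x' : Fin 3 → ℝ} (hx : x m = 1)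
    (hx' : x' m = 1) (hB : ‖x‖ ≤ B) (hB' : ‖x'‖ ≤ B) :
    ‖f (g *ᵥ x) - f (g *ᵥ x')‖ ≤ cA C δ L B *
      (|x l - x' l| + t ^ 3 * |yy g i j ⬝ᵥ x - yy g i j ⬝ᵥ x'|) := by
  have hC := h.C_pos ht
  have ht0 : 0 < t := by linarith
  have n1 : ∀ {z : Fin 3 → ℝ}, z m = 1 → 1 ≤ ‖z‖ := fun {z} hz => by
    have := norm_le_pi_norm z m
    rwa [hz, norm_one] at this
  have ne0 : ∀ {z : Fin 3 → ℝ}, z m = 1 → g *ᵥ z ≠ 0 := fun {z} hz h00 => by
    have h2 := (n1 hz).trans (h.norm_le z)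
    rw [h00, norm_zero, mul_zero] at h2
    linarith
  have hB0 : 0 < B := lt_of_lt_of_le (by linarith [n1 hx]) hB
  have hcS : 0 ≤ cS C δ := by unfold cS; positivity
  have ht3 : (1 : ℝ) ≤ t ^ 3 := one_le_pow₀ ht
  have main : ∀ {z z' : Fin 3 → ℝ}, z m = 1 → z' m = 1 → ‖z‖ ≤ B → f (g *ᵥ z) ≠ 0 →
      ‖f (g *ᵥ z) - f (g *ᵥ z')‖ ≤ cA C δ L B *
      (|z' l - z l| + t ^ 3 * |yy g i j ⬝ᵥ z' - yy g i j ⬝ᵥ z|) := by
    intro z z' hz hz' hzB hfz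
    refine (h.aniso_aux ht hδ hL0 (hs _ (ne0 hz) hfz) (n1 hz) (n1 hz') hzB
      (hL _ _ (ne0 hz) (ne0 hz'))).trans ?_
    have e1 := h.chart_diff ht hm hl hml hz hz'
    set p := |z' l - z l|
    set w := |yy g i j ⬝ᵥ z' - yy g i j ⬝ᵥ z|
    have hp : 0 ≤ p := abs_nonneg _
    have hw : 0 ≤ w := abs_nonneg _
    have e2 : p + w ≤ p + t ^ 3 * w := by nlinarith
    unfold cA
    rw [mul_assoc (9 * C ^ 2 * L)]
    refine mul_le_mul_of_nonneg_left ?_ (by positivity)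
    calc (6 * C ^ 3 * cS C δ * B + 18 * C ^ 4 * B) * ‖z' - z‖ + 6 * C ^ 3 * B * (t ^ 3 * w) ≤
        (6 * C ^ 3 * cS C δ * B + 18 * C ^ 4 * B) * (p + t ^ 3 * w) +
          6 * C ^ 3 * B * (p + t ^ 3 * w) := by
          refine add_le_add (mul_le_mul_of_nonneg_left (e1.trans e2) (by positivity)) ?_
          refine mul_le_mul_of_nonneg_left ?_ (by positivity)
          linarith
      _ = _ := by ring
  by_cases h1 : f (g *ᵥ x) = 0
  · by_cases h2 : f (g *ᵥ x') = 0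
    · rw [h1, h2, sub_zero, norm_zero]
      unfold cA
      positivity
    · rw [norm_sub_rev]
      exact main hx' hx hB' h2
  · rw [abs_sub_comm (x l), abs_sub_comm (yy g i j ⬝ᵥ x)]
    exact main hx hx' hB h1

end Vale.Agent.P092.H696
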