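import Vale.Agent.P092.H820.Pn
import Vale.Agent.P092.H696.Geo

/-!
P092, Team D (helper696): any attracting point is close to the pivot column; Lipschitz functions on
the projective plane are dense, with control of the zero set.
-/

namespace Vale.Agent.P092.H696

open Matrix Vale.Agent.P092.H820
open scoped LinearAlgebra.Projectivization

/-- Any attracting point of a near-wall element is close to the pivot column. -/
theorem NW.att {C t : ℝ} {g : Matrix (Fin 3) (Fin 3) ℝ} {i j : Fin 3} (h : NW C t g i j)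
    (ht : 1 ≤ t) {v : Fin 3 → ℝ} (hv : ‖v‖ ≤ 1) (hgv : |g i j| ≤ C * ‖g *ᵥ v‖) :
    ‖uu g i j ⨯₃ (g *ᵥ v)‖ ≤ 6 * C ^ 4 * (t ^ 3)⁻¹ * ‖g *ᵥ v‖ := by
  have hC := h.C_pos ht
  have ht0 : 0 < t := by linarith
  have e1 : ‖uu g i j ⨯₃ (g *ᵥ v)‖ ≤ 6 * C ^ 2 / t := by
    rw [h.cross_eq ht]
    refine (norm_cross_le _ _).trans ?_
    rw [h.uu_norm ht]
    have h1 := h.EEx ht v
    have h2 : 3 * (C ^ 2 / t) * ‖v‖ ≤ 3 * (C ^ 2 / t) * 1 :=
      mul_le_mul_of_nonneg_left hv (by positivity)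
    calc 2 * 1 * ‖EE g i j *ᵥ v‖ ≤ 2 * (3 * (C ^ 2 / t) * 1) := by linarith
      _ = 6 * C ^ 2 / t := by ring
  have e2 : t ^ 2 ≤ C ^ 2 * ‖g *ᵥ v‖ := by
    calc t ^ 2 ≤ C * |g i j| := h.lo
      _ ≤ C * (C * ‖g *ᵥ v‖) := mul_le_mul_of_nonneg_left hgv hC.le
      _ = _ := by ring
  calc ‖uu g i j ⨯₃ (g *ᵥ v)‖ ≤ 6 * C ^ 2 / t := e1
    _ = 6 * C ^ 2 * (t ^ 3)⁻¹ * t ^ 2 := by field_simp
    _ ≤ 6 * C ^ 2 * (t ^ 3)⁻¹ * (C ^ 2 * ‖g *ᵥ v‖) :=
      mul_le_mul_of_nonneg_left e2 (by positivity)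
    _ = _ := by ring

/-- the projective plane -/
abbrev P3 : Type := ℙ ℝ (Fin 3 → ℝ)

/-- nonzero vectors -/
abbrev NZ : Type := {v : Fin 3 → ℝ // v ≠ 0}

/-- Lipschitz functions on the projective plane for the angle distance. -/
def LipP (L : ℝ) (f : P3 → ℂ) : Prop :=
  ∀ a b : NZ, ‖f (pj ℝ (Fin 3) a) - f (pj ℝ (Fin 3) b)‖ * (‖a.1‖ * ‖b.1‖) ≤ L * ‖a.1 ⨯₃ b.1‖

namespace LipP

theorem mono {L L' : ℝ} {f : P3 → ℂ} (h : LipP L f) (hL : L ≤ L') : LipP L' f := fun a b =>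
  (h a b).trans (mul_le_mul_of_nonneg_right hL (norm_nonneg _))

theorem const (c : ℂ) : LipP 0 (fun _ => c) := fun a b => by simp

theorem add {L L' : ℝ} {f f' : P3 → ℂ} (h : LipP L f) (h' : LipP L' f') :
    LipP (L + L') (f + f') := fun a b => by
  have e : (f + f') (pj ℝ (Fin 3) a) - (f + f') (pj ℝ (Fin 3) b) =
      (f (pj ℝ (Fin 3) a) - f (pj ℝ (Fin 3) b)) + (f' (pj ℝ (Fin 3) a) - f' (pj ℝ (Fin 3) b)) := by
    simp only [Pi.add_apply]; ring
  rw [e]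
  calc _ ≤ (‖f (pj ℝ (Fin 3) a) - f (pj ℝ (Fin 3) b)‖ +
        ‖f' (pj ℝ (Fin 3) a) - f' (pj ℝ (Fin 3) b)‖) * (‖a.1‖ * ‖b.1‖) :=
        mul_le_mul_of_nonneg_right (norm_add_le _ _) (by positivity)
    _ ≤ _ := by
      have := h a b
      have := h' a b
      linarith

theorem mul {L L' A A' : ℝ} {f f' : P3 → ℂ} (h : LipP L f) (h' : LipP L' f')
    (hA : ∀ x, ‖f x‖ ≤ A) (hA' : ∀ x, ‖f' x‖ ≤ A') : LipP (A' * L + A * L') (f * f') := by
  intro a b
  set x := pj ℝ (Fin 3) a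
  set y := pj ℝ (Fin 3) b
  have e : (f * f') x - (f * f') y = (f x - f y) * f' x + f y * (f' x - f' y) := by
    simp only [Pi.mul_apply]; ring
  have e1 : ‖(f * f') x - (f * f') y‖ ≤ A' * ‖f x - f y‖ + A * ‖f' x - f' y‖ := by
    rw [e]
    refine (norm_add_le _ _).trans ?_
    rw [norm_mul, norm_mul, mul_comm ‖f x - f y‖]
    exact add_le_add (mul_le_mul_of_nonneg_right (hA' x) (norm_nonneg _))
      (mul_le_mul_of_nonneg_right (hA y) (norm_nonneg _))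
  have hA0 : 0 ≤ A := (norm_nonneg _).trans (hA x)
  have hA0' : 0 ≤ A' := (norm_nonneg _).trans (hA' x)
  calc _ ≤ (A' * ‖f x - f y‖ + A * ‖f' x - f' y‖) * (‖a.1‖ * ‖b.1‖) :=
        mul_le_mul_of_nonneg_right e1 (by positivity)
    _ = A' * (‖f x - f y‖ * (‖a.1‖ * ‖b.1‖)) + A * (‖f' x - f' y‖ * (‖a.1‖ * ‖b.1‖)) := by ring
    _ ≤ A' * (L * ‖a.1 ⨯₃ b.1‖) + A * (L' * ‖a.1 ⨯₃ b.1‖) :=
        add_le_add (mul_le_mul_of_nonneg_left (h a b) hA0')
          (mul_le_mul_of_nonneg_left (h' a b) hA0)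
    _ = _ := by ring

/-- composition with a Lipschitz map of the plane -/
theorem comp {L K : ℝ} {f : P3 → ℂ} (h : LipP L f) (hK : 0 ≤ K) {χ : ℂ → ℂ}
    (hχ : ∀ z w, ‖χ z - χ w‖ ≤ K * ‖z - w‖) : LipP (K * L) (fun x => χ (f x)) := fun a b => by
  calc _ ≤ K * ‖f (pj ℝ (Fin 3) a) - f (pj ℝ (Fin 3) b)‖ * (‖a.1‖ * ‖b.1‖) :=
        mul_le_mul_of_nonneg_right (hχ _ _) (by positivity)
    _ = K * (‖f (pj ℝ (Fin 3) a) - f (pj ℝ (Fin 3) b)‖ * (‖a.1‖ * ‖b.1‖)) := by ring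
    _ ≤ K * (L * ‖a.1 ⨯₃ b.1‖) := mul_le_mul_of_nonneg_left (h a b) hK
    _ = _ := by ring

end LipP

/-! ### the coordinate functions -/

theorem dot_self_pos (a : NZ) : 0 < a.1 ⬝ᵥ a.1 := by
  obtain ⟨v, hv⟩ := a
  have h0 : v 0 ≠ 0 ∨ v 1 ≠ 0 ∨ v 2 ≠ 0 := by
    by_contra hc
    push Not at hc
    apply hv
    funext i
    fin_cases i
    · exact hc.1
    · exact hc.2.1
    · exact hc.2.2
  simp only [dotProduct, Fin.sum_univ_three]
  rcases h0 with h | h | h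
  · have := mul_self_pos.2 h
    nlinarith [mul_self_nonneg (v 1), mul_self_nonneg (v 2)]
  · have := mul_self_pos.2 h
    nlinarith [mul_self_nonneg (v 0), mul_self_nonneg (v 2)]
  · have := mul_self_pos.2 h
    nlinarith [mul_self_nonneg (v 0), mul_self_nonneg (v 1)]

/-- the real function `v i * v j / (v . v)` on nonzero vectors -/
noncomputable def qv (i j : Fin 3) (a : NZ) : ℝ := a.1 i * a.1 j / (a.1 ⬝ᵥ a.1)

theorem qv_cont (i j : Fin 3) : Continuous (qv i j) := by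
  unfold qv
  refine Continuous.div ?_ ?_ fun a => (dot_self_pos a).ne'
  · exact ((continuous_apply i).comp continuous_subtype_val).mul
      ((continuous_apply j).comp continuous_subtype_val)
  · exact continuous_subtype_val.dotProduct continuous_subtype_val

/-- the coordinate functions of the projective plane -/
noncomputable def qf (i j : Fin 3) (x : P3) : ℂ :=
  Projectivization.lift (fun a : NZ => ((qv i j a : ℝ) : ℂ)) (by
    rintro ⟨a, ha⟩ ⟨b, hb⟩ t (h : a = t • b)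
    have ht : t ≠ 0 := by
      rintro rfl
      rw [zero_smul] at h
      exact ha h
    have hb' := (dot_self_pos ⟨b, hb⟩).ne'
    change b ⬝ᵥ b ≠ 0 at hb'
    simp only [qv, h, Pi.smul_apply, smul_eq_mul, dotProduct_smul, smul_dotProduct]
    congr 1
    field_simp) x

theorem qf_pj (i j : Fin 3) (a : NZ) : qf i j (pj ℝ (Fin 3) a) = ((qv i j a : ℝ) : ℂ) := rfl

theorem qf_cont (i j : Fin 3) : Continuous (qf i j) := by
  rw [(pj_oq (k := ℝ) (ι := Fin 3)).isQuotientMap.continuous_iff]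
  exact Complex.continuous_ofReal.comp (qv_cont i j)

theorem sup_sq_le_dot (a : Fin 3 → ℝ) : ‖a‖ ^ 2 ≤ a ⬝ᵥ a := by
  obtain ⟨i, hi⟩ := Finite.exists_max fun i => ‖a i‖
  have h1 : ‖a‖ ≤ ‖a i‖ := (pi_norm_le_iff_of_nonneg (norm_nonneg _)).2 hi
  have h2 : ‖a‖ ^ 2 ≤ ‖a i‖ ^ 2 := pow_le_pow_left₀ (norm_nonneg _) h1 2
  rw [Real.norm_eq_abs, sq_abs] at h2
  refine h2.trans ?_
  rw [dotProduct, pow_two]
  exact Finset.single_le_sum (f := fun k => a k * a k) (fun k _ => mul_self_nonneg (a k))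
    (Finset.mem_univ i)

theorem abs_wedge_le (a b : Fin 3 → ℝ) (i k : Fin 3) : |a i * b k - b i * a k| ≤ ‖a ⨯₃ b‖ := by
  have h := fun c => norm_le_pi_norm (a ⨯₃ b) c
  have h0 := h 0
  have h1 := h 1
  have h2 := h 2
  rw [cross_apply] at h0 h1 h2
  simp only [cons_val_zero, cons_val_one, Real.norm_eq_abs, cons_val] at h0 h1 h2
  rw [cross_apply]
  rw [abs_le] at h0 h1 h2 ⊢
  fin_cases i <;> fin_cases k <;> simp <;> first | positivity | (constructor <;> linarith)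

theorem qf_lip (i j : Fin 3) : LipP 6 (qf i j) := by
  intro a b
  have ha := dot_self_pos a
  have hb := dot_self_pos b
  have ha2 := sup_sq_le_dot a.1
  have hb2 := sup_sq_le_dot b.1
  set W := ‖a.1 ⨯₃ b.1‖ with hW
  have hW0 : 0 ≤ W := norm_nonneg _
  have na : 0 < ‖a.1‖ := norm_pos_iff.2 a.2
  have nb : 0 < ‖b.1‖ := norm_pos_iff.2 b.2
  rw [qf_pj, qf_pj, ← Complex.ofReal_sub, Complex.norm_real, Real.norm_eq_abs]
  have e : qv i j a - qv i j b = (∑ k, (a.1 i * b.1 k * (a.1 j * b.1 k - b.1 j * a.1 k) +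
      b.1 j * a.1 k * (a.1 i * b.1 k - b.1 i * a.1 k))) / ((a.1 ⬝ᵥ a.1) * (b.1 ⬝ᵥ b.1)) := by
    unfold qv
    rw [div_sub_div _ _ ha.ne' hb.ne']
    congr 1
    simp only [dotProduct, Fin.sum_univ_three]
    ring
  have hab : ∀ p q, |a.1 p * b.1 q| ≤ ‖a.1‖ * ‖b.1‖ := fun p q => by
    rw [abs_mul]
    exact mul_le_mul (norm_le_pi_norm a.1 p) (norm_le_pi_norm b.1 q) (abs_nonneg _)
      (norm_nonneg _)
  have e1 : |∑ k, (a.1 i * b.1 k * (a.1 j * b.1 k - b.1 j * a.1 k) +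
      b.1 j * a.1 k * (a.1 i * b.1 k - b.1 i * a.1 k))| ≤ 6 * (‖a.1‖ * ‖b.1‖ * W) := by
    refine (Finset.abs_sum_le_sum_abs _ _).trans ?_
    calc _ ≤ ∑ _k : Fin 3, (2 * (‖a.1‖ * ‖b.1‖ * W)) := by
          refine Finset.sum_le_sum fun k _ => ?_
          refine (abs_add_le _ _).trans ?_
          have h1 : |a.1 i * b.1 k * (a.1 j * b.1 k - b.1 j * a.1 k)| ≤ ‖a.1‖ * ‖b.1‖ * W := by
            rw [abs_mul]
            exact mul_le_mul (hab i k) (abs_wedge_le _ _ _ _) (abs_nonneg _) (by positivity)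
          have h2 : |b.1 j * a.1 k * (a.1 i * b.1 k - b.1 i * a.1 k)| ≤ ‖a.1‖ * ‖b.1‖ * W := by
            rw [abs_mul, mul_comm (b.1 j)]
            exact mul_le_mul (hab k j) (abs_wedge_le _ _ _ _) (abs_nonneg _) (by positivity)
          linarith
      _ = 6 * (‖a.1‖ * ‖b.1‖ * W) := by
          rw [Finset.sum_const, Finset.card_univ, Fintype.card_fin]
          simp only [nsmul_eq_mul]
          push_cast
          ring
  rw [e, abs_div, abs_of_pos (mul_pos ha hb), div_mul_eq_mul_div, div_le_iff₀ (mul_pos ha hb)]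
  calc _ ≤ 6 * (‖a.1‖ * ‖b.1‖ * W) * (‖a.1‖ * ‖b.1‖) :=
        mul_le_mul_of_nonneg_right e1 (by positivity)
    _ = 6 * W * (‖a.1‖ ^ 2 * ‖b.1‖ ^ 2) := by ring
    _ ≤ 6 * W * ((a.1 ⬝ᵥ a.1) * (b.1 ⬝ᵥ b.1)) := by
        refine mul_le_mul_of_nonneg_left ?_ (by positivity)
        exact mul_le_mul ha2 hb2 (by positivity) ha.le

/-- the subalgebra of Lipschitz functions -/
noncomputable def lipAlg : StarSubalgebra ℂ C(P3, ℂ) where
  carrier := {f | ∃ L, LipP L f}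
  mul_mem' := by
    rintro f f' ⟨L, h⟩ ⟨L', h'⟩
    exact ⟨_, h.mul h' (fun x => f.norm_coe_le_norm x) (fun x => f'.norm_coe_le_norm x)⟩
  add_mem' := by
    rintro f f' ⟨L, h⟩ ⟨L', h'⟩
    exact ⟨_, h.add h'⟩
  algebraMap_mem' := fun c => ⟨0, LipP.const c⟩
  star_mem' := by
    rintro f ⟨L, h⟩
    refine ⟨1 * L, LipP.comp h zero_le_one (χ := fun z => star z) fun z w => ?_⟩
    rw [← star_sub, norm_star, one_mul]

theorem mem_lipAlg {f : C(P3, ℂ)} : f ∈ lipAlg ↔ ∃ L, LipP L f := Iff.rfl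

theorem lipAlg_sep : lipAlg.toSubalgebra.SeparatesPoints := by
  intro x y hxy
  obtain ⟨a, rfl⟩ := pj_surj x
  obtain ⟨b, rfl⟩ := pj_surj y
  by_contra hc
  apply hxy
  have key : ∀ i j, qv i j a = qv i j b := by
    intro i j
    by_contra hne
    refine hc ⟨_, ⟨⟨qf i j, qf_cont i j⟩, ⟨6, qf_lip i j⟩, rfl⟩, ?_⟩
    change qf i j (pj ℝ (Fin 3) a) ≠ qf i j (pj ℝ (Fin 3) b)
    rw [qf_pj, qf_pj]
    intro h
    exact hne (Complex.ofReal_injective h)
  have ha := dot_self_pos a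
  have hb := dot_self_pos b
  obtain ⟨j, hj⟩ : ∃ j, a.1 j ≠ 0 := by
    by_contra hc'
    push Not at hc'
    exact a.2 (funext hc')
  have hbj : b.1 j ≠ 0 := by
    intro h0
    have := key j j
    unfold qv at this
    rw [h0, mul_zero, zero_div, div_eq_zero_iff] at this
    rcases this with h | h
    · exact hj (mul_self_eq_zero.1 h)
    · exact ha.ne' h
  refine (pj_eq a b).2 ⟨Units.mk0 ((a.1 ⬝ᵥ a.1) * b.1 j / ((b.1 ⬝ᵥ b.1) * a.1 j))
    (div_ne_zero (mul_ne_zero ha.ne' hbj) (mul_ne_zero hb.ne' hj)), ?_⟩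
  funext i
  have := key i j
  unfold qv at this
  rw [div_eq_div_iff ha.ne' hb.ne'] at this
  simp only [Units.smul_mk0, Pi.smul_apply, smul_eq_mul]
  rw [div_mul_eq_mul_div, div_eq_iff (mul_ne_zero hb.ne' hj)]
  linarith

theorem lip_dense (f : C(P3, ℂ)) {ε : ℝ} (hε : 0 < ε) :
    ∃ g : C(P3, ℂ), (∃ L, LipP L g) ∧ ‖f - g‖ ≤ ε := by
  have h := ContinuousMap.starSubalgebra_topologicalClosure_eq_top_of_separatesPoints lipAlg
    lipAlg_sep
  have hf : f ∈ lipAlg.topologicalClosure := by rw [h]; trivial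
  have hf' : f ∈ closure (lipAlg : Set C(P3, ℂ)) := hf
  obtain ⟨g, hg, hd⟩ := Metric.mem_closure_iff.1 hf' ε hε
  exact ⟨g, hg, by rw [← dist_eq_norm]; exact hd.le⟩

/-- the cut-off `χ s = 0` for `s ≤ 1`, `= 1` for `s ≥ 2` -/
noncomputable def cut (s : ℝ) : ℝ := max 0 (min 1 (s - 1))

theorem cut_lip (s s' : ℝ) : |cut s - cut s'| ≤ |s - s'| := by
  unfold cut
  have h1 : |max 0 (min 1 (s - 1)) - max 0 (min 1 (s' - 1))| ≤
      |min 1 (s - 1) - min 1 (s' - 1)| := by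
    rw [max_comm 0, max_comm 0]
    exact abs_max_sub_max_le_abs _ _ _
  have h2 : |min 1 (s - 1) - min 1 (s' - 1)| ≤ |(s - 1) - (s' - 1)| := by
    rw [min_comm 1, min_comm 1]
    exact abs_min_sub_min_le_max _ _ _ _ |>.trans (by simp)
  refine h1.trans (h2.trans (le_of_eq ?_))
  congr 1
  ring

theorem cut_zero {s : ℝ} (h : s ≤ 1) : cut s = 0 := by
  unfold cut
  rw [max_eq_left]
  exact (min_le_right _ _).trans (by linarith)

theorem cut_one {s : ℝ} (h : 2 ≤ s) : cut s = 1 := by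
  unfold cut
  rw [min_eq_left (by linarith), max_eq_right zero_le_one]

theorem cut_nonneg (s : ℝ) : 0 ≤ cut s := le_max_left _ _

theorem cut_le_one (s : ℝ) : cut s ≤ 1 := max_le zero_le_one (min_le_left _ _)

/-- **Density of the Lipschitz functions with control of the zero set.** -/
theorem lip_approx (f : C(P3, ℂ)) {ε : ℝ} (hε : 0 < ε) :
    ∃ g : C(P3, ℂ), (∃ L, LipP L g) ∧ ‖f - g‖ ≤ ε ∧ ∀ x, f x = 0 → g x = 0 := by
  obtain ⟨g, ⟨L, hL⟩, hg⟩ := lip_dense f (ε := ε / 3) (by positivity)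
  set e : ℝ := ε / 3 with he
  have he0 : 0 < e := by positivity
  have hχ : ∀ z w : ℂ, ‖((cut (‖z‖ / e) : ℝ) : ℂ) - ((cut (‖w‖ / e) : ℝ) : ℂ)‖ ≤
      e⁻¹ * ‖z - w‖ := by
    intro z w
    rw [← Complex.ofReal_sub, Complex.norm_real, Real.norm_eq_abs]
    refine (cut_lip _ _).trans ?_
    rw [← sub_div, abs_div, abs_of_pos he0, div_eq_inv_mul]
    exact mul_le_mul_of_nonneg_left (abs_norm_sub_norm_le z w) (by positivity)
  have hcc : Continuous fun z : ℂ => ((cut (‖z‖ / e) : ℝ) : ℂ) := by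
    refine Complex.continuous_ofReal.comp ?_
    unfold cut
    fun_prop
  let c : C(P3, ℂ) := ⟨fun x => ((cut (‖g x‖ / e) : ℝ) : ℂ), hcc.comp g.continuous⟩
  have hcL : LipP (e⁻¹ * L) c := hL.comp (by positivity) hχ
  have hc1 : ∀ x, ‖c x‖ ≤ 1 := fun x => by
    change ‖((cut (‖g x‖ / e) : ℝ) : ℂ)‖ ≤ 1
    rw [Complex.norm_real, Real.norm_eq_abs, abs_of_nonneg (cut_nonneg _)]
    exact cut_le_one _
  refine ⟨g * c, ⟨_, hL.mul hcL (fun x => g.norm_coe_le_norm x) hc1⟩, ?_, ?_⟩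
  · rw [ContinuousMap.norm_le _ hε.le]
    intro x
    have h1 : ‖f x - g x‖ ≤ e := by
      have := (f - g).norm_coe_le_norm x
      exact this.trans hg
    have h2 : ‖g x - g x * c x‖ ≤ 2 * e := by
      have e1 : g x - g x * c x = g x * (1 - c x) := by ring
      rw [e1, norm_mul]
      by_cases hx : 2 * e ≤ ‖g x‖
      · have : c x = 1 := by
          change ((cut (‖g x‖ / e) : ℝ) : ℂ) = 1
          rw [cut_one, Complex.ofReal_one]
          rw [le_div_iff₀ he0]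
          exact hx
        rw [this, sub_self, norm_zero, mul_zero]
        positivity
      · have h3 : ‖1 - c x‖ ≤ 1 := by
          change ‖1 - ((cut (‖g x‖ / e) : ℝ) : ℂ)‖ ≤ 1
          rw [← Complex.ofReal_one, ← Complex.ofReal_sub, Complex.norm_real, Real.norm_eq_abs,
            abs_of_nonneg (sub_nonneg.2 (cut_le_one _))]
          have := cut_nonneg (‖g x‖ / e)
          linarith
        calc ‖g x‖ * ‖1 - c x‖ ≤ 2 * e * 1 :=
              mul_le_mul (not_le.1 hx).le h3 (norm_nonneg _) (by positivity)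
          _ = 2 * e := mul_one _
    change ‖f x - g x * c x‖ ≤ ε
    calc ‖f x - g x * c x‖ = ‖(f x - g x) + (g x - g x * c x)‖ := by congr 1; ring
      _ ≤ e + 2 * e := (norm_add_le _ _).trans (add_le_add h1 h2)
      _ = ε := by rw [he]; ring
  · intro x hx
    have h1 : ‖g x‖ ≤ e := by
      have := (f - g).norm_coe_le_norm x
      rw [ContinuousMap.sub_apply, hx, zero_sub, norm_neg] at this
      exact this.trans hg
    change g x * ((cut (‖g x‖ / e) : ℝ) : ℂ) = 0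
    rw [cut_zero, Complex.ofReal_zero, mul_zero]
    rw [div_le_iff₀ he0, one_mul]
    exact h1

end Vale.Agent.P092.H696
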