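import Vale.Agent.P092.SD.Defs
import Vale.Agent.P092.H414.Near2
import Vale.Agent.P092.H696.Lip

/-!
P092, Team D (helper696): the bridge from the letters of `SD/Defs` to the geometry of near-wall
elements (`H696.Geo`) and to the shells of `H414.Near2`.
-/

namespace Vale.Agent.P092.H696

open Matrix Vale.Agent.P092.H820 Vale.Agent.P092.H414
open scoped LinearAlgebra.Projectivization

/-! ### Lipschitz functions -/

/-- two unit vectors are close up to a sign if their cross product is small -/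
theorem exists_sign {v w : Fin 3 → ℝ} (hv : ‖v‖ = 1) (hw : ‖w‖ = 1) :
    ∃ s : ℝ, (s = 1 ∨ s = -1) ∧ ‖w - s • v‖ ≤ 2 * ‖v ⨯₃ w‖ := by
  obtain ⟨i, hi⟩ := Finite.exists_max fun i => ‖v i‖
  have h1 : ‖v‖ ≤ ‖v i‖ := (pi_norm_le_iff_of_nonneg (norm_nonneg _)).2 hi
  have h2 : |v i| = 1 := le_antisymm (by rw [← hv]; exact norm_le_pi_norm v i) (by rw [← hv]; exact h1)
  have h3 : v i * v i = 1 := by rw [← abs_mul_abs_self, h2, one_mul]
  set c : ℝ := w i * v i with hc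
  set ε : ℝ := ‖v ⨯₃ w‖ with hε
  have e1 : ‖w - c • v‖ ≤ ε := by
    refine (pi_norm_le_iff_of_nonneg (norm_nonneg _)).2 fun k => ?_
    have e2 : (w - c • v) k = v i * (v i * w k - w i * v k) := by
      simp only [Pi.sub_apply, Pi.smul_apply, smul_eq_mul, hc]
      linear_combination (-(w k)) * h3
    rw [e2, norm_mul, Real.norm_eq_abs, Real.norm_eq_abs, h2, one_mul]
    exact abs_wedge_le v w i k
  have e3 : |c| ≤ 1 := by
    rw [hc, abs_mul, h2, mul_one, ← hw]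
    exact norm_le_pi_norm w i
  have e4 : 1 - |c| ≤ ε := by
    have : ‖w‖ ≤ ‖w - c • v‖ + ‖c • v‖ := by
      have := norm_add_le (w - c • v) (c • v)
      rwa [sub_add_cancel] at this
    rw [hw, norm_smul, hv, mul_one, Real.norm_eq_abs] at this
    linarith
  have key : ∀ s : ℝ, |c - s| = 1 - |c| → ‖w - s • v‖ ≤ 2 * ε := by
    intro s hs
    have e5 : w - s • v = (w - c • v) + (c - s) • v := by rw [sub_smul]; abel
    rw [e5]
    refine (norm_add_le _ _).trans ?_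
    rw [norm_smul, hv, mul_one, Real.norm_eq_abs, hs]
    linarith
  rcases le_total 0 c with h0 | h0
  · refine ⟨1, Or.inl rfl, key 1 ?_⟩
    rw [abs_of_nonneg h0] at e3 ⊢
    rw [abs_sub_comm, abs_of_nonneg (by linarith)]
  · refine ⟨-1, Or.inr rfl, key (-1) ?_⟩
    rw [abs_of_nonpos h0] at e3 ⊢
    rw [abs_of_nonneg (by linarith)]
    ring

theorem pt_eq_pj (v : Fin 3 → ℝ) (hv : v ≠ 0) : SD.pt ℝ v hv = pj ℝ (Fin 3) ⟨v, hv⟩ := rfl

theorem pt_smul {v : Fin 3 → ℝ} (hv : v ≠ 0) {c : ℝ} (hc : c ≠ 0) (h' : c • v ≠ 0) :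
    SD.pt ℝ (c • v) h' = SD.pt ℝ v hv := by
  rw [pt_eq_pj, pt_eq_pj, pj_eq]
  exact ⟨Units.mk0 c hc, rfl⟩

theorem lip_of_sd {f : SD.CP ℝ} (h : SD.LipP f) : ∃ L, 0 ≤ L ∧ LipP L f := by
  obtain ⟨C, hC⟩ := h
  refine ⟨2 * |C|, by positivity, fun a b => ?_⟩
  have ha : 0 < ‖a.1‖ := norm_pos_iff.2 a.2
  have hb : 0 < ‖b.1‖ := norm_pos_iff.2 b.2
  set v : Fin 3 → ℝ := ‖a.1‖⁻¹ • a.1 with hv
  set w : Fin 3 → ℝ := ‖b.1‖⁻¹ • b.1 with hw
  have nv : ‖v‖ = 1 := by rw [hv, norm_smul, norm_inv, norm_norm, inv_mul_cancel₀ ha.ne']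
  have nw : ‖w‖ = 1 := by rw [hw, norm_smul, norm_inv, norm_norm, inv_mul_cancel₀ hb.ne']
  obtain ⟨s, hs, hsv⟩ := exists_sign nv nw
  have hs0 : s ≠ 0 := by rcases hs with rfl | rfl <;> norm_num
  have hs1 : |s| = 1 := by rcases hs with rfl | rfl <;> norm_num
  have hv0 : v ≠ 0 := by rw [← norm_pos_iff, nv]; exact one_pos
  have hw0 : w ≠ 0 := by rw [← norm_pos_iff, nw]; exact one_pos
  have hsv0 : s • v ≠ 0 := smul_ne_zero hs0 hv0
  have e1 : pj ℝ (Fin 3) a = SD.pt ℝ (s • v) hsv0 := by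
    rw [pt_smul hv0 hs0, pt_smul a.2 (inv_ne_zero ha.ne')]
    rfl
  have e2 : pj ℝ (Fin 3) b = SD.pt ℝ w hw0 := by
    rw [pt_smul b.2 (inv_ne_zero hb.ne')]
    rfl
  have e3 : ‖f (pj ℝ (Fin 3) a) - f (pj ℝ (Fin 3) b)‖ ≤ |C| * (2 * ‖v ⨯₃ w‖) := by
    rw [e1, e2]
    refine (hC _ _ _ _ ?_ nw).trans ?_
    · rw [norm_smul, Real.norm_eq_abs, hs1, one_mul, nv]
    · rw [norm_sub_rev]
      exact mul_le_mul (le_abs_self C) hsv (norm_nonneg _) (abs_nonneg _)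
  have e4 : ‖v ⨯₃ w‖ * (‖a.1‖ * ‖b.1‖) = ‖a.1 ⨯₃ b.1‖ := by
    rw [hv, hw, map_smul, map_smul, LinearMap.smul_apply, norm_smul, norm_smul, norm_inv,
      norm_norm, norm_inv, norm_norm]
    field_simp
  calc _ ≤ |C| * (2 * ‖v ⨯₃ w‖) * (‖a.1‖ * ‖b.1‖) := mul_le_mul_of_nonneg_right e3 (by positivity)
    _ = 2 * |C| * (‖v ⨯₃ w‖ * (‖a.1‖ * ‖b.1‖)) := by ring
    _ = _ := by rw [e4]

theorem sd_of_lip {f : SD.CP ℝ} {L : ℝ} (h : LipP L f) : SD.LipP f := by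
  refine ⟨2 * |L|, fun v w hv hw nv nw => ?_⟩
  have h1 := h ⟨v, hv⟩ ⟨w, hw⟩
  change ‖f (SD.pt ℝ v hv) - f (SD.pt ℝ w hw)‖ * (‖v‖ * ‖w‖) ≤ L * ‖v ⨯₃ w‖ at h1
  rw [nv, nw, mul_one, mul_one] at h1
  refine h1.trans ?_
  have e1 : v ⨯₃ w = v ⨯₃ (w - v) := by rw [map_sub, cross_self, sub_zero]
  have e2 : ‖v ⨯₃ w‖ ≤ 2 * ‖v - w‖ := by
    rw [e1]
    refine (norm_cross_le _ _).trans ?_
    rw [nv, mul_one, norm_sub_rev]
  calc L * ‖v ⨯₃ w‖ ≤ |L| * (2 * ‖v - w‖) :=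
        mul_le_mul (le_abs_self L) e2 (norm_nonneg _) (abs_nonneg _)
    _ = _ := by ring

/-- density of the Lipschitz functions, with control of the zero set -/
theorem sd_approx (f : SD.CP ℝ) {ε : ℝ} (hε : 0 < ε) :
    ∃ g : SD.CP ℝ, SD.LipP g ∧ ‖f - g‖ ≤ ε ∧ (∀ x, f x = 0 → g x = 0) ∧
      tsupport g ⊆ tsupport f := by
  obtain ⟨g, ⟨L, hL⟩, h1, h2⟩ := lip_approx f hε
  refine ⟨g, sd_of_lip hL, h1, h2, closure_mono fun x hx => ?_⟩
  rw [Function.mem_support] at hx ⊢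
  exact fun h0 => hx (h2 x h0)

/-! ### near-wall elements -/

theorem nm_eq (g : SD.G3 ℝ) : SD.nm g = mx g.1 := by
  unfold SD.nm
  apply le_antisymm
  · refine (pi_norm_le_iff_of_nonneg (mx_nonneg _)).2 fun i => ?_
    refine (pi_norm_le_iff_of_nonneg (mx_nonneg _)).2 fun j => ?_
    exact le_mx g.1 i j
  · refine mx_le fun i j => ?_
    exact (norm_le_pi_norm (fun j => g.1 i j) j).trans
      (norm_le_pi_norm (fun i j => g.1 i j : Fin 3 → Fin 3 → ℝ) i)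

theorem of_sh {C b : ℝ} (hC : 0 ≤ C) {g : SD.G3 ℝ} (h : Sh C b g) {i j : Fin 3} (hp : Piv g i j) :
    NW C b g.1 i j where
  det := g.2
  piv := hp
  lo := h.piv_low hC hp
  hi := h.up i j
  adj := h.adj

/-- the scale of an element -/
noncomputable def sc (g : SD.G3 ℝ) : ℝ := Real.exp ((sn g : ℝ) / 2)

theorem one_le_sc (g : SD.G3 ℝ) : 1 ≤ sc g := one_le_b _

theorem sh_of_nw {R : ℝ} (hR : 0 ≤ R) {g : SD.G3 ℝ} (h : SD.NW R g) : Sh (3 + 3 * R) (sc g) g := by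
  refine shell_of hR ?_
  unfold SD.NW at h
  rwa [nm_eq, nm_eq] at h

theorem of_nw {R : ℝ} (hR : 0 ≤ R) {g : SD.G3 ℝ} (h : SD.NW R g) {i j : Fin 3}
    (hp : Piv g i j) : NW (3 + 3 * R) (sc g) g.1 i j :=
  of_sh (by positivity) (sh_of_nw hR h) hp

/-! ### uniform separation -/

/-- a bihomogeneous continuous function which is positive on two closed sets of the plane is
bounded below -/
theorem unif_aux {A B : Set (SD.PP ℝ)} (hA : IsClosed A) (hB : IsClosed B)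
    (Φ : (Fin 3 → ℝ) → (Fin 3 → ℝ) → ℝ) (hΦ : Continuous fun p : (Fin 3 → ℝ) × (Fin 3 → ℝ) =>
      Φ p.1 p.2) (hs : ∀ (s t : ℝ) v w, 0 ≤ s → 0 ≤ t → Φ (s • v) (t • w) = s * t * Φ v w)
    (hpos : ∀ a b : NZ, pj ℝ (Fin 3) a ∈ A → pj ℝ (Fin 3) b ∈ B → 0 < Φ a.1 b.1) :
    ∃ δ > 0, ∀ a b : NZ, pj ℝ (Fin 3) a ∈ A → pj ℝ (Fin 3) b ∈ B →
      δ * (‖a.1‖ * ‖b.1‖) ≤ Φ a.1 b.1 := by
  have hS : IsCompact (Metric.sphere (0 : Fin 3 → ℝ) 1) := isCompact_sphere _ _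
  have : CompactSpace (Metric.sphere (0 : Fin 3 → ℝ) 1) := isCompact_iff_compactSpace.1 hS
  let ι : Metric.sphere (0 : Fin 3 → ℝ) 1 → NZ := fun v => ⟨v.1, by
    intro h
    have := v.2
    rw [h] at this
    simp at this⟩
  have hι : Continuous ι := Continuous.subtype_mk continuous_subtype_val _
  let K : Set (Metric.sphere (0 : Fin 3 → ℝ) 1 × Metric.sphere (0 : Fin 3 → ℝ) 1) :=
    {p | pj ℝ (Fin 3) (ι p.1) ∈ A ∧ pj ℝ (Fin 3) (ι p.2) ∈ B}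
  have hK : IsCompact K := by
    apply IsClosed.isCompact
    exact (hA.preimage ((pj_continuous.comp hι).comp continuous_fst)).inter
      (hB.preimage ((pj_continuous.comp hι).comp continuous_snd))
  have hc : Continuous fun p : Metric.sphere (0 : Fin 3 → ℝ) 1 × Metric.sphere (0 : Fin 3 → ℝ) 1 =>
      Φ p.1.1 p.2.1 := hΦ.comp (Continuous.prodMk (continuous_subtype_val.comp continuous_fst)
        (continuous_subtype_val.comp continuous_snd))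
  have hδ : ∃ δ > 0, ∀ p ∈ K, δ ≤ Φ p.1.1 p.2.1 := by
    rcases K.eq_empty_or_nonempty with h0 | h0
    · refine ⟨1, one_pos, fun p hp => ?_⟩
      rw [h0] at hp
      exact absurd hp (Set.notMem_empty _)
    · obtain ⟨p, hp, hmin⟩ := hK.exists_isMinOn h0 hc.continuousOn
      exact ⟨Φ p.1.1 p.2.1, hpos (ι p.1) (ι p.2) hp.1 hp.2, fun p' hp' => hmin hp'⟩
  obtain ⟨δ, hδ0, hδ1⟩ := hδ
  refine ⟨δ, hδ0, fun a b ha hb => ?_⟩
  have na : 0 < ‖a.1‖ := norm_pos_iff.2 a.2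
  have nb : 0 < ‖b.1‖ := norm_pos_iff.2 b.2
  have ma : ‖‖a.1‖⁻¹ • a.1‖ = 1 := by rw [norm_smul, norm_inv, norm_norm, inv_mul_cancel₀ na.ne']
  have mb : ‖‖b.1‖⁻¹ • b.1‖ = 1 := by rw [norm_smul, norm_inv, norm_norm, inv_mul_cancel₀ nb.ne']
  have h1 := hδ1 (⟨‖a.1‖⁻¹ • a.1, by simpa using ma⟩, ⟨‖b.1‖⁻¹ • b.1, by simpa using mb⟩) (by
    constructor
    · have : pj ℝ (Fin 3) (ι ⟨‖a.1‖⁻¹ • a.1, by simpa using ma⟩) = pj ℝ (Fin 3) a :=
        pt_smul a.2 (inv_ne_zero na.ne') _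
      rw [this]
      exact ha
    · have : pj ℝ (Fin 3) (ι ⟨‖b.1‖⁻¹ • b.1, by simpa using mb⟩) = pj ℝ (Fin 3) b :=
        pt_smul b.2 (inv_ne_zero nb.ne') _
      rw [this]
      exact hb)
  change δ ≤ Φ (‖a.1‖⁻¹ • a.1) (‖b.1‖⁻¹ • b.1) at h1
  rw [hs _ _ _ _ (by positivity) (by positivity)] at h1
  calc δ * (‖a.1‖ * ‖b.1‖) ≤ ‖a.1‖⁻¹ * ‖b.1‖⁻¹ * Φ a.1 b.1 * (‖a.1‖ * ‖b.1‖) :=
        mul_le_mul_of_nonneg_right h1 (by positivity)
    _ = Φ a.1 b.1 := by field_simp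

theorem cross_cont : Continuous fun p : (Fin 3 → ℝ) × (Fin 3 → ℝ) => ‖p.1 ⨯₃ p.2‖ := by
  refine Continuous.norm (continuous_pi fun i => ?_)
  simp only [cross_apply]
  fin_cases i <;> simp <;> fun_prop

/-- disjoint closed sets of points are at a definite angle -/
theorem unif_cross {A B : Set (SD.PP ℝ)} (hA : IsClosed A) (hB : IsClosed B)
    (hAB : Disjoint A B) : ∃ δ > 0, ∀ a b : NZ, pj ℝ (Fin 3) a ∈ A → pj ℝ (Fin 3) b ∈ B →
      δ * (‖a.1‖ * ‖b.1‖) ≤ ‖a.1 ⨯₃ b.1‖ := by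
  refine unif_aux hA hB (fun v w => ‖v ⨯₃ w‖) cross_cont (fun s t v w hs ht => ?_)
    fun a b ha hb => ?_
  · rw [map_smul, map_smul, LinearMap.smul_apply, norm_smul, norm_smul, Real.norm_of_nonneg hs,
      Real.norm_of_nonneg ht]
    ring
  · rw [norm_pos_iff]
    intro h0
    have : pj ℝ (Fin 3) a = pj ℝ (Fin 3) b :=
      (Projectivization.mk_eq_mk_iff_crossProduct_eq_zero a.2 b.2).2 h0
    rw [this] at ha
    exact Set.disjoint_left.1 hAB ha hb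

/-- non incident closed sets are at a definite angle -/
theorem unif_dot {A B : Set (SD.PP ℝ)} (hA : IsClosed A) (hB : IsClosed B)
    (hAB : SD.NInc A B) : ∃ δ > 0, ∀ a b : NZ, pj ℝ (Fin 3) a ∈ A → pj ℝ (Fin 3) b ∈ B →
      δ * (‖a.1‖ * ‖b.1‖) ≤ |a.1 ⬝ᵥ b.1| := by
  refine unif_aux hA hB (fun v w => |v ⬝ᵥ w|) ?_ (fun s t v w hs ht => ?_) fun a b ha hb => ?_
  · exact (continuous_fst.dotProduct continuous_snd).abs
  · rw [smul_dotProduct, dotProduct_smul, smul_eq_mul, smul_eq_mul, abs_mul, abs_mul,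
      abs_of_nonneg hs, abs_of_nonneg ht]
    ring
  · rw [abs_pos]
    intro h0
    exact hAB _ ha _ hb ((orthogonal_iff a b).2 h0)

/-- the pivot column is close to any approximate attracting point -/
theorem att_uu {T : ℝ} {A : Set (SD.PP ℝ)} {g : SD.G3 ℝ} (h : SD.Att T A g)
    {i j : Fin 3} (hp : Piv g i j) (h0 : g.1 i j ≠ 0) :
    ∃ (v : Fin 3 → ℝ) (hv : v ≠ 0) (c : ℝ), SD.pt ℝ v hv ∈ A ∧ ‖uu g.1 i j - c • v‖ ≤ 1 / T := by
  obtain ⟨v, φ, hv, hvA, hvφ⟩ := h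
  refine ⟨v, hv, φ j / g.1 i j, hvA, ?_⟩
  have hg : 0 < |g.1 i j| := abs_pos.2 h0
  have hT : 0 ≤ 1 / T := by
    have h1 := (norm_nonneg _).trans (hvφ 0 0)
    rw [nm_eq, hp.mx_eq, div_eq_mul_one_div] at h1
    exact nonneg_of_mul_nonneg_right h1 hg
  refine (pi_norm_le_iff_of_nonneg hT).2 fun k => ?_
  have e1 : (uu g.1 i j - (φ j / g.1 i j) • v) k = (g.1 k j - v k * φ j) / g.1 i j := by
    simp only [Pi.sub_apply, Pi.smul_apply, smul_eq_mul, uu]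
    field_simp
  rw [e1, norm_div, Real.norm_eq_abs (g.1 i j), div_le_iff₀ hg]
  have h2 := hvφ k j
  rw [nm_eq, hp.mx_eq] at h2
  calc ‖g.1 k j - v k * φ j‖ ≤ |g.1 i j| / T := h2
    _ = 1 / T * |g.1 i j| := by ring

/-- **uniform separation of the attracting point** -/
theorem unif {A : Set (SD.PP ℝ)} (hA : IsClosed A) {f h : SD.CP ℝ}
    (hf : Disjoint A (tsupport f)) (hh : SD.NInc A (tsupport h)) :
    ∃ δ > 0, ∃ T0 > 0, ∀ T ≥ T0, ∀ g : SD.G3 ℝ, SD.Att T A g → ∀ i j, Piv g i j → g.1 i j ≠ 0 →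
      (∀ (a : Fin 3 → ℝ) (ha : a ≠ 0), f (SD.pt ℝ a ha) ≠ 0 →
        δ * ‖a‖ ≤ ‖uu g.1 i j ⨯₃ a‖) ∧
      (∀ (l : Fin 3 → ℝ) (hl : l ≠ 0), h (SD.pt ℝ l hl) ≠ 0 → δ * ‖l‖ ≤ |l ⬝ᵥ uu g.1 i j|) := by
  obtain ⟨d1, hd1, H1⟩ := unif_cross hA (isClosed_tsupport f) hf
  obtain ⟨d2, hd2, H2⟩ := unif_dot hA (isClosed_tsupport h) hh
  set d := min d1 d2 with hd
  have hd0 : 0 < d := lt_min hd1 hd2
  refine ⟨d / 2, by positivity, 2 * (d + 3) / d, by positivity, fun T hT g hatt i j hp h0 => ?_⟩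
  have hT0 : 0 < T := lt_of_lt_of_le (by positivity) hT
  obtain ⟨v, hv, c, hvA, hcv⟩ := att_uu hatt hp h0
  have hvp : 0 < ‖v‖ := norm_pos_iff.2 hv
  have hg : 0 < |g.1 i j| := abs_pos.2 h0
  have huu : ‖uu g.1 i j‖ = 1 := by
    apply le_antisymm
    · refine (pi_norm_le_iff_of_nonneg zero_le_one).2 fun a => ?_
      unfold uu
      rw [norm_div, Real.norm_eq_abs, Real.norm_eq_abs]
      exact div_le_one_of_le₀ (hp a j) (abs_nonneg _)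
    · have := norm_le_pi_norm (uu g.1 i j) i
      rwa [uu_self h0, norm_one] at this
  have hc1 : 1 - 1 / T ≤ |c| * ‖v‖ := by
    have h1 : ‖uu g.1 i j‖ ≤ ‖uu g.1 i j - c • v‖ + ‖c • v‖ := by
      have := norm_add_le (uu g.1 i j - c • v) (c • v)
      rwa [sub_add_cancel] at this
    rw [huu, norm_smul, Real.norm_eq_abs] at h1
    linarith
  have hTd : d * (1 - 1 / T) - 3 / T ≥ d / 2 := by
    have h1 : 2 * (d + 3) / d ≤ T := hT
    rw [div_le_iff₀ hd0] at h1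
    have h2 : (d + 3) / T ≤ d / 2 := by
      rw [div_le_div_iff₀ hT0 two_pos]
      linarith
    have h3 : (d + 3) / T = d * (1 / T) + 3 / T := by ring
    have h4 : d * (1 - 1 / T) = d - d * (1 / T) := by ring
    rw [h4]
    linarith
  have hinv : 0 < 1 / T := by positivity
  constructor
  · intro a ha hfa
    have hap : 0 < ‖a‖ := norm_pos_iff.2 ha
    have h1 : d1 * (‖v‖ * ‖a‖) ≤ ‖v ⨯₃ a‖ :=
      H1 ⟨v, hv⟩ ⟨a, ha⟩ hvA (subset_tsupport f hfa)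
    have h2 : |c| * ‖v ⨯₃ a‖ ≤ ‖uu g.1 i j ⨯₃ a‖ + 2 * (1 / T) * ‖a‖ := by
      have e1 : (c • v) ⨯₃ a = uu g.1 i j ⨯₃ a - (uu g.1 i j - c • v) ⨯₃ a := by
        rw [map_sub, LinearMap.sub_apply]; abel
      have e2 : ‖(c • v) ⨯₃ a‖ = |c| * ‖v ⨯₃ a‖ := by
        rw [map_smul, LinearMap.smul_apply, norm_smul, Real.norm_eq_abs]
      rw [← e2, e1]
      refine (norm_sub_le _ _).trans (add_le_add le_rfl ?_)
      refine (norm_cross_le _ _).trans ?_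
      exact mul_le_mul_of_nonneg_right (mul_le_mul_of_nonneg_left hcv (by norm_num)) hap.le
    have h3 : d * (1 - 1 / T) * ‖a‖ ≤ |c| * ‖v ⨯₃ a‖ := by
      calc d * (1 - 1 / T) * ‖a‖ ≤ d * (|c| * ‖v‖) * ‖a‖ :=
            mul_le_mul_of_nonneg_right (mul_le_mul_of_nonneg_left hc1 hd0.le) hap.le
        _ = |c| * (d * (‖v‖ * ‖a‖)) := by ring
        _ ≤ |c| * (d1 * (‖v‖ * ‖a‖)) := mul_le_mul_of_nonneg_left
            (mul_le_mul_of_nonneg_right (min_le_left _ _) (by positivity)) (abs_nonneg _)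
        _ ≤ |c| * ‖v ⨯₃ a‖ := mul_le_mul_of_nonneg_left h1 (abs_nonneg _)
    have h4 : (d * (1 - 1 / T) - 3 / T) * ‖a‖ ≤ ‖uu g.1 i j ⨯₃ a‖ := by
      have e5 : (d * (1 - 1 / T) - 3 / T) * ‖a‖ = d * (1 - 1 / T) * ‖a‖ - 3 * (1 / T * ‖a‖) := by
        ring
      rw [e5]
      have e6 : 0 ≤ 1 / T * ‖a‖ := by positivity
      linarith
    calc d / 2 * ‖a‖ ≤ (d * (1 - 1 / T) - 3 / T) * ‖a‖ :=
          mul_le_mul_of_nonneg_right hTd hap.le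
      _ ≤ _ := h4
  · intro l hl hhl
    have hlp : 0 < ‖l‖ := norm_pos_iff.2 hl
    have h1 : d2 * (‖v‖ * ‖l‖) ≤ |v ⬝ᵥ l| :=
      H2 ⟨v, hv⟩ ⟨l, hl⟩ hvA (subset_tsupport h hhl)
    have h2 : |c| * |v ⬝ᵥ l| ≤ |l ⬝ᵥ uu g.1 i j| + 3 * (1 / T) * ‖l‖ := by
      have e1 : (c • v) ⬝ᵥ l = l ⬝ᵥ uu g.1 i j - l ⬝ᵥ (uu g.1 i j - c • v) := by
        rw [dotProduct_sub, dotProduct_comm (c • v)]; ring
      have e2 : |(c • v) ⬝ᵥ l| = |c| * |v ⬝ᵥ l| := by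
        rw [smul_dotProduct, smul_eq_mul, abs_mul]
      rw [← e2, e1]
      refine (abs_sub _ _).trans (add_le_add le_rfl ?_)
      have e3 : ∀ k, |l k * (uu g.1 i j - c • v) k| ≤ ‖l‖ * (1 / T) := fun k => by
        rw [abs_mul]
        exact mul_le_mul (norm_le_pi_norm l k)
          ((norm_le_pi_norm (uu g.1 i j - c • v) k).trans hcv) (abs_nonneg _) hlp.le
      simp only [dotProduct, Fin.sum_univ_three]
      calc _ ≤ |l 0 * (uu g.1 i j - c • v) 0| + |l 1 * (uu g.1 i j - c • v) 1| +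
            |l 2 * (uu g.1 i j - c • v) 2| := abs_add_three _ _ _
        _ ≤ ‖l‖ * (1 / T) + ‖l‖ * (1 / T) + ‖l‖ * (1 / T) := by gcongr <;> exact e3 _
        _ = _ := by ring
    have h3 : d * (1 - 1 / T) * ‖l‖ ≤ |c| * |v ⬝ᵥ l| := by
      calc d * (1 - 1 / T) * ‖l‖ ≤ d * (|c| * ‖v‖) * ‖l‖ :=
            mul_le_mul_of_nonneg_right (mul_le_mul_of_nonneg_left hc1 hd0.le) hlp.le
        _ = |c| * (d * (‖v‖ * ‖l‖)) := by ring
        _ ≤ |c| * (d2 * (‖v‖ * ‖l‖)) := mul_le_mul_of_nonneg_left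
            (mul_le_mul_of_nonneg_right (min_le_right _ _) (by positivity)) (abs_nonneg _)
        _ ≤ |c| * |v ⬝ᵥ l| := mul_le_mul_of_nonneg_left h1 (abs_nonneg _)
    calc d / 2 * ‖l‖ ≤ (d * (1 - 1 / T) - 3 / T) * ‖l‖ :=
          mul_le_mul_of_nonneg_right hTd hlp.le
      _ = d * (1 - 1 / T) * ‖l‖ - 3 * (1 / T) * ‖l‖ := by ring
      _ ≤ _ := by linarith

end Vale.Agent.P092.H696
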