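import Vale.Agent.P092.H696.Dns
import Vale.Agent.P092.H933.LocF

/-!
P092, TEAM N (helper696): `td_dense` in the letters `H933.LocK`.
-/

set_option linter.all false

open scoped Topology LinearAlgebra.Projectivization

namespace Vale.Agent.P092.H696

theorem loc_or {k : Type} [NontriviallyNormedField k] (hk : H933.LocK k) :
    (∃ τ : k →+* ℂ, ∀ x, ‖τ x‖ = ‖x‖) ∨ IsUltrametricDist k := by
  rcases hk with ⟨φ, h⟩ | ⟨φ, h⟩ | h
  · exact Or.inl ⟨Complex.ofRealHom.comp φ.toRingHom, fun x => by
      rw [← h x]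
      exact Complex.norm_real _⟩
  · exact Or.inl ⟨φ.toRingHom, h⟩
  · exact Or.inr h

/-- **(T1)** for every local field -/
theorem td_dense_loc {k : Type} [NontriviallyNormedField k] [ProperSpace k] {β : Type}
    [Fintype β] (hk : H933.LocK k) :
    closure (Submodule.span ℂ (TD k β) : Set C(ℙ k (β → k), ℂ)) = Set.univ :=
  td_dense (loc_or hk)

end Vale.Agent.P092.H696
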