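import Vale.Agent.P092.H696.SDGeo

/-!
P092, Team D (helper696): the geometry of the near-wall elements in the letters of `SD/Defs`.
-/

namespace Vale.Agent.P092.H696

open Matrix Vale.Agent.P092.H820 Vale.Agent.P092.H414
open scoped LinearAlgebra.Projectivization

variable {C t : ℝ} {g : Matrix (Fin 3) (Fin 3) ℝ} {i j : Fin 3}

theorem yy_dot (h0 : g i j ≠ 0) {m l : Fin 3} (hm : m ≠ j) (hl : l ≠ j) (hml : m ≠ l)
    (z : Fin 3 → ℝ) : yy g i j ⬝ᵥ z = z j + yy g i j m * z m + yy g i j l * z l := by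
  have hsum : ∀ F : Fin 3 → ℝ, ∑ b, F b = F j + F m + F l := by
    intro F
    rw [Fin.sum_univ_three]
    revert hm hl hml
    fin_cases j <;> fin_cases m <;> fin_cases l <;> simp <;> ring
  rw [dotProduct, hsum, yy_self h0, one_mul]

theorem norm_le_of_chart (x : Fin 3 → ℝ) {m l : Fin 3} (hm : m ≠ j) (hl : l ≠ j) (hml : m ≠ l)
    {B : ℝ} (hB : 0 ≤ B) (h1 : |x j| ≤ B) (h2 : |x m| ≤ B) (h3 : |x l| ≤ B) : ‖x‖ ≤ B := by
  refine (pi_norm_le_iff_of_nonneg hB).2 fun a => ?_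
  have hall : a = j ∨ a = m ∨ a = l := by
    revert hm hl hml
    clear h1 h2 h3
    fin_cases a <;> fin_cases j <;> fin_cases m <;> fin_cases l <;> simp
  rcases hall with rfl | rfl | rfl
  · exact h1
  · exact h2
  · exact h3

/-- in a chart the points of the strip are bounded -/
theorem NW.chart_bd (h : NW C t g i j) (ht : 1 ≤ t) {δ : ℝ} (hδ : 0 < δ)
    (hsm : 2 * cS C δ ≤ t ^ 3) {x : Fin 3 → ℝ}
    (hx : δ * ‖g *ᵥ x‖ ≤ ‖uu g i j ⨯₃ (g *ᵥ x)‖) {m l : Fin 3} (hm : m ≠ j) (hl : l ≠ j)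
    (hml : m ≠ l) (hxm : |x m| ≤ 1) (hxl : |x l| ≤ 1) : ‖x‖ ≤ 4 := by
  have h0 := h.ne ht
  have ht0 : 0 < t := by linarith
  have hs := h.strip ht hδ hx
  have h1 : cS C δ * (t ^ 3)⁻¹ ≤ 1 / 2 := by
    rw [← div_eq_mul_inv, div_le_iff₀ (by positivity)]
    linarith
  have h2 : |yy g i j ⬝ᵥ x| ≤ 1 / 2 * ‖x‖ :=
    hs.trans (mul_le_mul_of_nonneg_right h1 (norm_nonneg _))
  rw [yy_dot h0 hm hl hml] at h2
  have hym : |yy g i j m * x m| ≤ 1 := by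
    rw [abs_mul]
    exact mul_le_one₀ (h.yy_le m) (abs_nonneg _) hxm
  have hyl : |yy g i j l * x l| ≤ 1 := by
    rw [abs_mul]
    exact mul_le_one₀ (h.yy_le l) (abs_nonneg _) hxl
  have h3 : |x j| ≤ 1 / 2 * ‖x‖ + 2 := by
    have e1 : x j = (x j + yy g i j m * x m + yy g i j l * x l) - (yy g i j m * x m) -
      yy g i j l * x l := by ring
    rw [e1]
    calc _ ≤ |(x j + yy g i j m * x m + yy g i j l * x l) - (yy g i j m * x m)| +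
          |yy g i j l * x l| := abs_sub _ _
      _ ≤ |x j + yy g i j m * x m + yy g i j l * x l| + |yy g i j m * x m| +
          |yy g i j l * x l| := add_le_add (abs_sub _ _) le_rfl
      _ ≤ _ := by linarith
  have hn := norm_nonneg x
  have h4 : ‖x‖ ≤ 1 / 2 * ‖x‖ + 2 :=
    norm_le_of_chart x hm hl hml (by positivity) h3 (by linarith) (by linarith)
  linarith

/-- the anisotropic regularity without bound on the points -/
theorem NW.aniso' (h : NW C t g i j) (ht : 1 ≤ t) {δ L : ℝ} (hδ : 0 < δ) (hL0 : 0 ≤ L)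
    (hsm : 2 * cS C δ ≤ t ^ 3) {f : (Fin 3 → ℝ) → ℂ}
    (hL : ∀ a b, a ≠ 0 → b ≠ 0 → ‖f a - f b‖ * (‖a‖ * ‖b‖) ≤ L * ‖a ⨯₃ b‖)
    (hs : ∀ a, a ≠ 0 → f a ≠ 0 → δ * ‖a‖ ≤ ‖uu g i j ⨯₃ a‖)
    {m l : Fin 3} (hm : m ≠ j) (hl : l ≠ j) (hml : m ≠ l) {x x' : Fin 3 → ℝ} (hx : x m = 1)
    (hx' : x' m = 1) (hxl : |x l| ≤ 1) (hxl' : |x' l| ≤ 1) :
    ‖f (g *ᵥ x) - f (g *ᵥ x')‖ ≤ cA C δ L 4 *
      (|x l - x' l| + t ^ 3 * |yy g i j ⬝ᵥ x - yy g i j ⬝ᵥ x'|) := by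
  have hC := h.C_pos ht
  have ht0 : 0 < t := by linarith
  have n1 : ∀ {z : Fin 3 → ℝ}, z m = 1 → 1 ≤ ‖z‖ := fun {z} hz => by
    have := norm_le_pi_norm z m
    rwa [hz, norm_one] at this
  have ne0 : ∀ {z : Fin 3 → ℝ}, z m = 1 → g *ᵥ z ≠ 0 := fun {z} hz h00 => by
    have h2 := (n1 hz).trans (h.norm_le z)
    rw [h00, norm_zero, mul_zero] at h2
    linarith
  have hcS : 0 ≤ cS C δ := by unfold cS; positivity
  have ht3 : (1 : ℝ) ≤ t ^ 3 := one_le_pow₀ ht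
  have main : ∀ {z z' : Fin 3 → ℝ}, z m = 1 → z' m = 1 → |z l| ≤ 1 → f (g *ᵥ z) ≠ 0 →
      ‖f (g *ᵥ z) - f (g *ᵥ z')‖ ≤ cA C δ L 4 *
      (|z' l - z l| + t ^ 3 * |yy g i j ⬝ᵥ z' - yy g i j ⬝ᵥ z|) := by
    intro z z' hz hz' hzl hfz
    have hzs := hs _ (ne0 hz) hfz
    have hzB : ‖z‖ ≤ 4 := h.chart_bd ht hδ hsm hzs hm hl hml (by rw [hz, abs_one]) hzl
    refine (h.aniso_aux ht hδ hL0 hzs (n1 hz) (n1 hz') hzB
      (hL _ _ (ne0 hz) (ne0 hz'))).trans ?_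
    have e1 := h.chart_diff ht hm hl hml hz hz'
    set p := |z' l - z l|
    set w := |yy g i j ⬝ᵥ z' - yy g i j ⬝ᵥ z|
    have hp : 0 ≤ p := abs_nonneg _
    have hw : 0 ≤ w := abs_nonneg _
    have e2 : p + w ≤ p + t ^ 3 * w := by nlinarith
    unfold cA
    rw [mul_assoc (9 * C ^ 2 * L)]
    refine mul_le_mul_of_nonneg_left ?_ (by positivity)
    calc (6 * C ^ 3 * cS C δ * 4 + 18 * C ^ 4 * 4) * ‖z' - z‖ + 6 * C ^ 3 * 4 * (t ^ 3 * w) ≤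
        (6 * C ^ 3 * cS C δ * 4 + 18 * C ^ 4 * 4) * (p + t ^ 3 * w) +
          6 * C ^ 3 * 4 * (p + t ^ 3 * w) := by
          refine add_le_add (mul_le_mul_of_nonneg_left (e1.trans e2) (by positivity)) ?_
          refine mul_le_mul_of_nonneg_left ?_ (by positivity)
          linarith
      _ = _ := by ring
  by_cases h1 : f (g *ᵥ x) = 0
  · by_cases h2 : f (g *ᵥ x') = 0
    · rw [h1, h2, sub_zero, norm_zero]
      unfold cA
      positivity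
    · rw [norm_sub_rev]
      exact main hx' hx hxl' h2
  · rw [abs_sub_comm (x l), abs_sub_comm (yy g i j ⬝ᵥ x)]
    exact main hx hx' hxl h1

/-- the homogeneous function on vectors -/
noncomputable def ev (f : SD.CP ℝ) (v : Fin 3 → ℝ) : ℂ :=
  open Classical in if hv : v ≠ 0 then f (SD.pt ℝ v hv) else 0

theorem ev_eq (f : SD.CP ℝ) {v : Fin 3 → ℝ} (hv : v ≠ 0) : ev f v = f (SD.pt ℝ v hv) := by
  unfold ev
  rw [dif_pos hv]

theorem mulVec_ne (g : SD.G3 ℝ) {x : Fin 3 → ℝ} (hx : x ≠ 0) : g.1 *ᵥ x ≠ 0 := by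
  intro h
  apply hx
  have e : g.1.adjugate *ᵥ (g.1 *ᵥ x) = x := by
    rw [mulVec_mulVec, adjugate_mul, g.2, one_smul, one_mulVec]
  rw [← e, h, mulVec_zero]

theorem smul_pt (g : SD.G3 ℝ) {x : Fin 3 → ℝ} (hx : x ≠ 0) :
    g • SD.pt ℝ x hx = SD.pt ℝ (g.1 *ᵥ x) (mulVec_ne g hx) := rfl

/-- **The geometry of near-wall elements**, in the letters of `SD/Defs`. -/
theorem sd_geo {R : ℝ} (hR : 0 ≤ R) {f h : SD.CP ℝ} (hf : SD.LipP f) {A : Set (SD.PP ℝ)}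
    (hA : IsClosed A) (h1 : Disjoint A (tsupport f)) (h2 : SD.NInc A (tsupport h)) :
    ∃ T0 > 0, ∃ C1 > 0, ∀ T ≥ T0, ∀ g : SD.G3 ℝ, SD.NW R g → SD.Att T A g → ∀ i j, Piv g i j →
      C1 ≤ sc g ^ 3 →
      (∀ (x : Fin 3 → ℝ) (hx : x ≠ 0), f (g • SD.pt ℝ x hx) ≠ 0 →
        |yy g.1 i j ⬝ᵥ x| ≤ C1 * (sc g ^ 3)⁻¹ * ‖x‖) ∧
      (∀ (l : Fin 3 → ℝ) (hl : l ≠ 0), h (SD.tau ℝ g • SD.pt ℝ l hl) ≠ 0 →
        l j ≠ 0 ∧ ∀ b, |l b - l j * yy g.1 i j b| ≤ C1 * (sc g ^ 3)⁻¹ * |l j|) ∧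
      (∀ m l : Fin 3, m ≠ j → l ≠ j → m ≠ l → ∀ (x x' : Fin 3 → ℝ) (hx : x ≠ 0) (hx' : x' ≠ 0),
        x m = 1 → x' m = 1 → |x l| ≤ 1 → |x' l| ≤ 1 →
        ‖f (g • SD.pt ℝ x hx) - f (g • SD.pt ℝ x' hx')‖ ≤
          C1 * (|x l - x' l| + sc g ^ 3 * |yy g.1 i j ⬝ᵥ x - yy g.1 i j ⬝ᵥ x'|)) := by
  obtain ⟨δ, hδ, T0, hT0, hun⟩ := unif hA h1 h2
  obtain ⟨L, hL0, hL⟩ := lip_of_sd hf
  set C : ℝ := 3 + 3 * R with hC
  have hC0 : 0 < C := by positivity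
  have hcS : 0 < cS C δ := by unfold cS; positivity
  have hcD : 0 < cD C δ := by unfold cD; positivity
  have hcA : 0 ≤ cA C δ L 4 := by unfold cA; positivity
  refine ⟨T0, hT0, 2 * cS C δ + cD C δ + cA C δ L 4 + 6 * C ^ 3 / δ, by positivity,
    fun T hT g hnw hatt i j hp hsc => ?_⟩
  set C1 : ℝ := 2 * cS C δ + cD C δ + cA C δ L 4 + 6 * C ^ 3 / δ with hC1
  have hnn : 0 ≤ 6 * C ^ 3 / δ := by positivity
  have H := of_nw hR hnw hp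
  have ht := one_le_sc g
  have ht0 : 0 < sc g := by linarith
  have h0 := H.ne ht
  obtain ⟨u1, u2⟩ := hun T hT g hatt i j hp h0
  have hsm : 2 * cS C δ ≤ sc g ^ 3 := by linarith
  have hsd : 6 * C ^ 3 ≤ δ * sc g ^ 3 := by
    have : 6 * C ^ 3 / δ ≤ sc g ^ 3 := by linarith
    rw [div_le_iff₀ hδ] at this
    linarith
  have hs : ∀ a, a ≠ 0 → ev f a ≠ 0 → δ * ‖a‖ ≤ ‖uu g.1 i j ⨯₃ a‖ := fun a ha hfa => by
    rw [ev_eq f ha] at hfa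
    exact u1 a ha hfa
  have hLe : ∀ a b, a ≠ 0 → b ≠ 0 → ‖ev f a - ev f b‖ * (‖a‖ * ‖b‖) ≤ L * ‖a ⨯₃ b‖ :=
    fun a b ha hb => by
      rw [ev_eq f ha, ev_eq f hb]
      exact hL ⟨a, ha⟩ ⟨b, hb⟩
  refine ⟨fun x hx hfx => ?_, fun l hl hhl => ?_, fun m l hm hl hml x x' hx hx' hxm hxm' hxl hxl' =>
    ?_⟩
  · have e1 := H.strip ht hδ (u1 _ (mulVec_ne g hx) hfx)
    refine e1.trans ?_
    refine mul_le_mul_of_nonneg_right (mul_le_mul_of_nonneg_right ?_ (by positivity))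
      (norm_nonneg _)
    linarith
  · have hl' : ((SD.tau ℝ g).1 *ᵥ l) ≠ 0 := mulVec_ne _ hl
    have e2 : ((SD.tau ℝ g).1 *ᵥ l) ᵥ* g.1 = l := by
      have e5 : (g⁻¹).1 * g.1 = 1 := congrArg Subtype.val (inv_mul_cancel g)
      change ((g⁻¹).1ᵀ *ᵥ l) ᵥ* g.1 = l
      rw [mulVec_transpose, vecMul_vecMul]
      exact (congrArg (fun M => l ᵥ* M) e5).trans (vecMul_one l)
    have e3 := H.disc ht hδ hsd hl' (u2 _ hl' hhl)
    rw [e2] at e3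
    refine ⟨e3.1, fun b => (e3.2 b).trans ?_⟩
    refine mul_le_mul_of_nonneg_right (mul_le_mul_of_nonneg_right ?_ (by positivity))
      (abs_nonneg _)
    linarith
  · have e4 := H.aniso' ht hδ hL0 hsm hLe hs hm hl hml hxm hxm' hxl hxl'
    rw [ev_eq f (mulVec_ne g hx), ev_eq f (mulVec_ne g hx')] at e4
    rw [smul_pt, smul_pt]
    refine e4.trans ?_
    refine mul_le_mul_of_nonneg_right ?_ (by positivity)
    linarith

end Vale.Agent.P092.H696
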